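import Crest.Agent.N250.Ti.Main
import Crest.Agent.N250.St.Defs2
import Crest.Agent.N250.B2.Defs2

/-!
# Row 250, block B2 (helper1): the classes of `Ti/Main` seen from the parabolic cut `hh` of `St/Defs2`.
-/

set_option autoImplicit false
open Set Filter Topology Complex

noncomputable section

namespace Crest.Agent.N250.Ti
open St

/-- `re w → +∞` in the strip `|im w| ≤ θ` -/
def Fq (θ : ℝ) : Filter ℂ := Fr ⊓ 𝓟 {w | |w.im| ≤ θ}

theorem Fq_le (θ : ℝ) : Fq θ ≤ Fr := inf_le_left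

theorem ev_Fq {θ : ℝ} {p : ℂ → Prop} : (∀ᶠ w in Fq θ, p w) ↔ ∃ x₀, ∀ w ∈ QQ x₀ θ, p w := by
  rw [Fq, eventually_inf_principal, eventually_comap, eventually_atTop]
  exact ⟨fun ⟨x, h⟩ => ⟨x, fun w hw => h _ hw.1 w rfl hw.2⟩,
    fun ⟨x, h⟩ => ⟨x, fun y hy w e hw => h w ⟨e ▸ hy, hw⟩⟩⟩

theorem ev_im (θ : ℝ) : ∀ᶠ w in Fq θ, |w.im| ≤ θ := ev_Fq.2 ⟨0, fun _ h => h.2⟩

theorem QQ_mono {x₀ x₁ θ : ℝ} (h : x₀ ≤ x₁) : QQ x₁ θ ⊆ QQ x₀ θ := fun _ hw => ⟨h.trans hw.1, hw.2⟩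

/-- the centre of an end -/
def sig (γ x : ℝ) : ℝ := -γ * Real.exp (x / 2)

@[simp] theorem pt_re (σ : ℝ → ℝ) (x s : ℝ) : (pt σ x s).re = x := by
  simp only [pt, add_re, ofReal_re, mul_re, I_re, ofReal_im, I_im]; ring

@[simp] theorem pt_im (σ : ℝ → ℝ) (x s : ℝ) : (pt σ x s).im = (s + σ x) / Real.exp x := by
  simp only [pt, add_im, ofReal_re, mul_im, I_re, ofReal_im, I_im]; ring

theorem exp_half_sq (x : ℝ) : Real.exp (x / 2) ^ 2 = Real.exp x := by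
  rw [← Real.exp_nat_mul]; congr 1; push_cast; ring

theorem half_atTop : Tendsto (fun x : ℝ => Real.exp (x / 2)) atTop atTop :=
  Real.tendsto_exp_atTop.comp (tendsto_id.atTop_div_const two_pos)

theorem half_inv : Tendsto (fun x : ℝ => (Real.exp (x / 2))⁻¹) atTop (𝓝 0) :=
  tendsto_inv_atTop_zero.comp half_atTop

/-- `√ρ · y → -γ` -/
theorem tendsto_sy (γ s : ℝ) :
    Tendsto (fun x => Real.exp (x / 2) * (pt (sig γ) x s).im) atTop (𝓝 (-γ)) := by
  have := (half_inv.const_mul s).add_const (-γ)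
  rw [mul_zero, zero_add] at this
  refine this.congr fun x => ?_
  rw [pt_im, sig, ← exp_half_sq x]
  have := Real.exp_pos (x / 2)
  generalize Real.exp (x / 2) = r at *
  field_simp

theorem tendsto_y (γ s : ℝ) : Tendsto (fun x => (pt (sig γ) x s).im) atTop (𝓝 0) := by
  have := half_inv.mul (tendsto_sy γ s)
  rw [zero_mul] at this
  exact this.congr fun x => inv_mul_cancel_left₀ (Real.exp_pos _).ne' _

theorem tendsto_pt {θ : ℝ} (hθ : 0 < θ) (γ s : ℝ) :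
    Tendsto (fun x => pt (sig γ) x s) atTop (Fq θ) := by
  refine tendsto_inf.2 ⟨tendsto_comap_iff.2 (tendsto_id.congr fun x => (pt_re _ _ _).symm),
    tendsto_principal.2 ?_⟩
  have := (tendsto_y γ s).abs
  rw [abs_zero] at this
  exact (this.eventually (eventually_le_nhds hθ))

theorem hh_le (w : ℂ) : hh w ≤ Real.exp w.re := by
  have := Real.exp_pos w.re
  rw [hh, chi]; nlinarith [sq_nonneg w.im]

theorem le_hh {w : ℂ} (h : |w.im| ≤ 1) : 5 / 8 * Real.exp w.re ≤ hh w := by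
  have := Real.exp_pos w.re
  have h2 : w.im ^ 2 ≤ 1 := by rw [← sq_abs]; nlinarith [abs_nonneg w.im]
  rw [hh, chi]; nlinarith

theorem hh_pos {w : ℂ} (h : |w.im| ≤ 1) : 0 < hh w :=
  lt_of_lt_of_le (by positivity) (le_hh h)

/-- `ζ = e^{w/2} + iγ/2` -/
def ze (γ : ℝ) (w : ℂ) : ℂ := exp (w / 2) + I * γ / 2

theorem ze_sq (γ : ℝ) (w : ℂ) :
    ze γ w ^ 2 = exp w + I * γ * exp (w / 2) - ((γ ^ 2 / 4 : ℝ) : ℂ) := by
  have : exp w = exp (w / 2) ^ 2 := by rw [← Complex.exp_nat_mul]; congr 1; push_cast; ring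
  rw [ze, this]; push_cast
  linear_combination (γ ^ 2 / 4 : ℂ) * I_sq

theorem ze_re (γ : ℝ) (w : ℂ) : (ze γ w).re = Real.exp (w.re / 2) * Real.cos (w.im / 2) := by
  simp [ze, exp_re]

theorem ze_im (γ : ℝ) (w : ℂ) :
    (ze γ w).im = Real.exp (w.re / 2) * Real.sin (w.im / 2) + γ / 2 := by
  simp [ze, exp_im]

theorem cos_half {y : ℝ} (h : |y| ≤ 1) : 7 / 8 ≤ Real.cos (y / 2) := by
  have h2 : y ^ 2 ≤ 1 := by rw [← sq_abs]; nlinarith [abs_nonneg y]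
  have := Real.one_sub_sq_div_two_le_cos (x := y / 2)
  nlinarith

theorem sin_half (y : ℝ) : |Real.sin (y / 2)| ≤ |y| / 2 := by
  have := Real.abs_sin_le_abs (x := y / 2)
  rwa [abs_div, abs_two] at this

theorem sin_cube {y : ℝ} (h : |y| ≤ 1) : |y - 2 * Real.sin (y / 2)| ≤ |y| ^ 3 / 16 := by
  wlog hy : 0 ≤ y generalizing y
  · have := this (y := -y) (by rwa [abs_neg]) (by linarith)
    rwa [neg_div, Real.sin_neg, abs_neg, ← abs_neg, show -(-y - 2 * -Real.sin (y / 2)) =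
      y - 2 * Real.sin (y / 2) by ring] at this
  rcases hy.eq_or_lt with rfl | hy'
  · simp
  rw [abs_of_nonneg hy] at h ⊢
  have h1 := Real.sin_gt_sub_cube (x := y / 2) (by linarith)
  have h2 := Real.sin_le (x := y / 2) (by linarith)
  rw [abs_of_nonneg (by linarith)]
  nlinarith [pow_pos hy' 3]

/-- the modulus of `ζ² + E` exceeds the level of the cut -/
theorem key {γ A : ℝ} {w E : ℂ} (hw : |w.im| ≤ 1) (hA : A - ‖E‖ * |w.im| ≤ E.re) :
    hh w + A - 18 * ‖E‖ ^ 2 / Real.exp w.re - 2 * |γ| * ‖E‖ / Real.exp (w.re / 2) ≤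
      ‖ze γ w ^ 2 + E‖ := by
  set ζ := ze γ w
  set r := Real.exp (w.re / 2) with hr
  have r0 : 0 < r := Real.exp_pos _
  have hρ : Real.exp w.re = r ^ 2 := (exp_half_sq _).symm
  have hc := cos_half hw
  have hs := sin_half w.im
  have hre : ζ.re = r * Real.cos (w.im / 2) := ze_re γ w
  have him : ζ.im = r * Real.sin (w.im / 2) + γ / 2 := ze_im γ w
  have hn : 7 / 8 * r ≤ ‖ζ‖ := le_trans (by rw [hre]; nlinarith) (re_le_norm ζ)
  have n0 : 0 < ‖ζ‖ := by linarith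
  have hsq : ‖ζ‖ ^ 2 = r ^ 2 + γ * r * Real.sin (w.im / 2) + γ ^ 2 / 4 := by
    rw [Complex.sq_norm, normSq_apply, hre, him]
    linear_combination r ^ 2 * Real.sin_sq_add_cos_sq (w.im / 2)
  have h1 : hh w + r ^ 2 * |w.im| ^ 2 / 8 ≤ ‖ζ‖ ^ 2 := by
    have e1 : -(|γ| * r * (|w.im| / 2)) ≤ γ * r * Real.sin (w.im / 2) := by
      refine neg_le_of_abs_le ?_
      rw [abs_mul, abs_mul, abs_of_pos r0]; gcongr
    rw [hsq, hh, chi, hρ, ← sq_abs w.im, ← sq_abs γ]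
    nlinarith [sq_nonneg (r * |w.im| - |γ|)]
  have h2 : |ζ.im| ≤ r * (|w.im| / 2) + |γ| / 2 := by
    rw [him]
    refine (abs_add_le _ _).trans (add_le_add ?_ (by rw [abs_div, abs_two]))
    rw [abs_mul, abs_of_pos r0]; gcongr
  -- test against the unit vector `conj ζ / ζ`
  set ν := (starRingEnd ℂ) ζ / ζ with hν
  have hζ : ζ ≠ 0 := norm_pos_iff.1 n0
  have hν1 : ‖ν‖ = 1 := by rw [hν, norm_div, norm_conj, div_self n0.ne']
  have h3 : ζ ^ 2 * ν = ((‖ζ‖ ^ 2 : ℝ) : ℂ) := by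
    rw [Complex.sq_norm, ← mul_conj, hν]; field_simp
  have h4 : ‖1 - ν‖ ≤ 2 * (|w.im| + |γ| / r) := by
    have : 1 - ν = (2 * ζ.im : ℝ) * I / ζ := by rw [← sub_conj, hν]; field_simp
    rw [this, norm_div, norm_mul, norm_I, mul_one, norm_real, Real.norm_eq_abs, abs_mul, abs_two,
      div_le_iff₀ n0]
    have e : 2 * (|w.im| + |γ| / r) * (7 / 8 * r) = 7 / 4 * (r * |w.im| + |γ|) := by field_simp; ring
    have : 2 * (|w.im| + |γ| / r) * (7 / 8 * r) ≤ 2 * (|w.im| + |γ| / r) * ‖ζ‖ := by gcongr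
    have : 0 ≤ r * |w.im| + |γ| := by positivity
    linarith
  have h5 : ((ζ ^ 2 + E) * ν).re ≤ ‖ζ ^ 2 + E‖ :=
    (re_le_norm _).trans (by rw [norm_mul, hν1, mul_one])
  have h6 : (ζ ^ 2 + E) * ν = ((‖ζ‖ ^ 2 : ℝ) : ℂ) + E - E * (1 - ν) := by rw [← h3]; ring
  have h7 : (E * (1 - ν)).re ≤ ‖E‖ * (2 * (|w.im| + |γ| / r)) :=
    (re_le_norm _).trans (by rw [norm_mul]; gcongr)
  rw [h6, sub_re, add_re, ofReal_re] at h5
  have h8 : 3 * ‖E‖ * |w.im| ≤ r ^ 2 * |w.im| ^ 2 / 8 + 18 * ‖E‖ ^ 2 / r ^ 2 := by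
    have : 18 * ‖E‖ ^ 2 / r ^ 2 = 18 * (‖E‖ / r) ^ 2 := by field_simp
    have e : ‖E‖ = ‖E‖ / r * r := by field_simp
    rw [this]
    generalize ‖E‖ / r = a at e
    rw [e]; nlinarith [sq_nonneg (r * |w.im| - 12 * a)]
  have h9 : ‖E‖ * (2 * (|w.im| + |γ| / r)) = 2 * ‖E‖ * |w.im| + 2 * |γ| * ‖E‖ / r := by ring
  rw [hρ]
  linarith

/-- the imaginary part of `ζ²` at the point `pt` -/
theorem im_ze_sq (γ x s : ℝ) : (ze γ (pt (sig γ) x s) ^ 2).im =
    Real.cos ((pt (sig γ) x s).im / 2) * (s - Real.exp x *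
      ((pt (sig γ) x s).im - 2 * Real.sin ((pt (sig γ) x s).im / 2))) := by
  have e : Real.exp x * (pt (sig γ) x s).im = s - γ * Real.exp (x / 2) := by
    rw [pt_im, mul_div_cancel₀ _ (Real.exp_pos x).ne', sig]; ring
  rw [sq, mul_im, ze_re, ze_im, pt_re, mul_sub (Real.exp x), e, ← exp_half_sq x]; ring

theorem im_ze_ge {γ x s : ℝ} (hw : |(pt (sig γ) x s).im| ≤ 1) (hx : |γ| ≤ Real.exp (x / 2)) :
    3 / 4 * |s| - γ ^ 2 ≤ |(ze γ (pt (sig γ) x s) ^ 2).im| := by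
  have e : Real.exp x * (pt (sig γ) x s).im = s - γ * Real.exp (x / 2) := by
    rw [pt_im, mul_div_cancel₀ _ (Real.exp_pos x).ne', sig]; ring
  rw [im_ze_sq]
  generalize (pt (sig γ) x s).im = y at *
  rw [← exp_half_sq x] at e ⊢
  set r := Real.exp (x / 2)
  have r0 : 0 < r := Real.exp_pos _
  have hc := cos_half hw
  have h3 := sin_cube hw
  have y0 := abs_nonneg y
  have g0 := abs_nonneg γ
  have h1 : r ^ 2 * |y| ≤ |s| + |γ| * r := by
    have := abs_sub s (γ * r)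
    rwa [← e, abs_mul, abs_mul, abs_of_pos r0, abs_of_pos (pow_pos r0 2)] at this
  have h2 : |γ| * r * |y| ≤ |s| + |γ| ^ 2 := by
    have : r * (|γ| * r * |y|) ≤ r * (|s| + |γ| ^ 2) := by nlinarith [abs_nonneg s]
    exact le_of_mul_le_mul_left this r0
  have h4 : r ^ 2 * |y| ^ 3 ≤ 2 * |s| + |γ| ^ 2 := by
    have a1 : r ^ 2 * |y| ^ 3 ≤ r ^ 2 * |y| * |y| := by
      have : |y| ^ 3 ≤ |y| * |y| := by nlinarith [mul_nonneg y0 y0]
      nlinarith [sq_nonneg r]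
    have a2 : r ^ 2 * |y| * |y| ≤ (|s| + |γ| * r) * |y| := by gcongr
    nlinarith [abs_nonneg s]
  have h5 : |r ^ 2 * (y - 2 * Real.sin (y / 2))| ≤ (2 * |s| + |γ| ^ 2) / 16 := by
    rw [abs_mul, abs_of_pos (pow_pos r0 2)]; nlinarith [sq_nonneg r]
  have h6 := abs_sub_abs_le_abs_sub s (r ^ 2 * (y - 2 * Real.sin (y / 2)))
  rw [abs_mul, abs_of_pos (show 0 < Real.cos (y / 2) by linarith), ← sq_abs γ]
  nlinarith [abs_nonneg (s - r ^ 2 * (y - 2 * Real.sin (y / 2))), sq_nonneg |γ|]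

section cls
variable {θ : ℝ} {b : ℂ → ℂ} {γ e σ κ : ℝ} {c : ℂ}

theorem re_atTop (θ : ℝ) : Tendsto Complex.re (Fq θ) atTop := tendsto_re.mono_left (Fq_le θ)

theorem exp_atTop (θ : ℝ) : Tendsto (fun w : ℂ => Real.exp w.re) (Fq θ) atTop :=
  Real.tendsto_exp_atTop.comp (re_atTop θ)

theorem hh_atTop (hθ : θ ≤ 1) : Tendsto hh (Fq θ) atTop :=
  tendsto_atTop_mono' _ ((ev_im θ).mono fun _ h => le_hh (h.trans hθ))
    ((exp_atTop θ).const_mul_atTop (by norm_num))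

theorem tie_self {l : Filter ℂ} (h : Tendsto (fun w => b w - exp w) l (𝓝 0)) : Tie l b 0 0 :=
  h.congr fun w => by simp

theorem Tie.ze {l : Filter ℂ} (h : Tie l b γ e) :
    Tendsto (fun w => b w - ze γ w ^ 2) l (𝓝 (e : ℂ)) := by
  have := Tendsto.add_const (e : ℂ) h
  rw [zero_add] at this
  exact this.congr fun w => by rw [ze_sq]; push_cast; ring

theorem Tie.norm_ge (hθ : θ ≤ 1) (h : Tie (Fq θ) b γ e) (d : ℝ) {η : ℝ} (hη : 0 < η) :
    ∀ᶠ w in Fq θ, hh w + (e - d - η) ≤ ‖b w - d‖ := by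
  have h1 := h.ze.sub_const (d : ℂ)
  have h2 := ((continuous_re.tendsto _).comp h1).sub
    (((h1.norm.pow 2).const_mul 18).div_atTop (exp_atTop θ)) |>.sub
    ((h1.norm.const_mul (2 * |γ|)).div_atTop (half_atTop.comp (re_atTop θ)))
  simp only [sub_re, ofReal_re, sub_zero] at h2
  filter_upwards [h2.eventually (eventually_ge_nhds (sub_lt_self _ hη)), ev_im θ] with w hw hy
  have := key (γ := γ) (E := b w - Ti.ze γ w ^ 2 - d) (hy.trans hθ)
    (sub_le_self _ (mul_nonneg (norm_nonneg _) (abs_nonneg _)))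
  rw [show Ti.ze γ w ^ 2 + (b w - Ti.ze γ w ^ 2 - d) = b w - d by ring] at this
  simp only [Function.comp] at hw
  linarith

theorem Mid.ze {l : Filter ℂ} (hl : l ≤ Fr) (h : Mid l b γ σ c) (d : ℝ) :
    Tendsto (fun w => (b w - ze γ w ^ 2 - d) / exp (σ * w)) l (𝓝 c) :=
  (h.congr hl (b' := fun w => b w + ((γ ^ 2 / 4 - d : ℝ) : ℂ)) (d := ((γ ^ 2 / 4 - d : ℝ) : ℂ))
    (tendsto_const_nhds.congr fun w => by ring)).2.2.2.2.congr fun w => by
      rw [ze_sq]; push_cast; ring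

theorem Mid.norm_ge (hθ : θ ≤ 1) (h : Mid (Fq θ) b γ σ c) (d : ℝ) :
    ∀ᶠ w in Fq θ, hh w + c.re / 2 * Real.exp (σ * w.re) ≤ ‖b w - d‖ ∧
      ‖b w - Ti.ze γ w ^ 2 - d‖ ≤ (‖c‖ + 1) * Real.exp (σ * w.re) := by
  have h1 := h.ze (Fq_le θ) d
  obtain ⟨s0, s1, c0, -, -⟩ := h
  have h3 : Tendsto (fun w : ℂ => Real.exp ((1 - σ) * w.re)) (Fq θ) atTop :=
    Real.tendsto_exp_atTop.comp ((re_atTop θ).const_mul_atTop (sub_pos.2 s1))
  have h2 := ((continuous_re.tendsto _).comp h1).sub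
    (((h1.norm.pow 2).const_mul 18).div_atTop h3) |>.sub
    ((h1.norm.const_mul (2 * |γ|)).div_atTop (half_atTop.comp (re_atTop θ)))
  simp only [sub_zero] at h2
  filter_upwards [h2.eventually (eventually_ge_nhds (half_lt_self c0)), ev_im θ,
    h1.norm.eventually (eventually_le_nhds (lt_add_one _))] with w hw hy hn
  simp only [Function.comp] at hw
  set E := b w - Ti.ze γ w ^ 2 - d
  set c' := E / exp (σ * w)
  have hE : E = c' * exp (σ * w) := (div_mul_cancel₀ _ (exp_ne_zero _)).symm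
  set m := Real.exp (σ * w.re) with hm
  have m0 : 0 < m := Real.exp_pos _
  have hEn : ‖E‖ = ‖c'‖ * m := by rw [hE, norm_mul, norm_exp, re_ofReal_mul]
  refine ⟨?_, by rw [hEn]; gcongr⟩
  have hA : m * c'.re - ‖E‖ * |w.im| ≤ E.re := by
    have e1 : exp (σ * w) = m * exp (I * (σ * w.im : ℝ)) := by
      rw [hm, ofReal_exp, ← Complex.exp_add]; congr 1
      conv_lhs => rw [← re_add_im w]
      push_cast; ring
    have e2 : E = m * c' + m * (c' * (exp (I * (σ * w.im : ℝ)) - 1)) := by rw [hE, e1]; ring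
    have e3 : ‖c' * (exp (I * (σ * w.im : ℝ)) - 1)‖ ≤ ‖c'‖ * |w.im| := by
      rw [norm_mul]
      refine mul_le_mul_of_nonneg_left (Real.norm_exp_I_mul_ofReal_sub_one_le.trans ?_)
        (norm_nonneg _)
      rw [Real.norm_eq_abs, abs_mul, abs_of_pos s0]; nlinarith [abs_nonneg w.im]
    have e4 := neg_le_of_abs_le ((abs_re_le_norm _).trans e3)
    rw [hEn]
    conv_rhs => rw [e2, add_re, re_ofReal_mul, re_ofReal_mul]
    nlinarith
  have := key (γ := γ) (hy.trans hθ) hA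
  rw [show Ti.ze γ w ^ 2 + E = b w - d by simp only [E]; ring, hEn,
    show Real.exp w.re = Real.exp ((1 - σ) * w.re) * m by rw [hm, ← Real.exp_add]; ring_nf] at this
  have e5 : 18 * (‖c'‖ * m) ^ 2 / (Real.exp ((1 - σ) * w.re) * m) =
      m * (18 * ‖c'‖ ^ 2 / Real.exp ((1 - σ) * w.re)) := by field_simp
  have e6 : 2 * |γ| * (‖c'‖ * m) / Real.exp (w.re / 2) =
      m * (2 * |γ| * ‖c'‖ / Real.exp (w.re / 2)) := by ring
  rw [e5, e6] at this
  nlinarith [mul_le_mul_of_nonneg_left hw m0.le]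

theorem Mid.gap (h : Mid (Fq θ) b γ σ c) :
    Tendsto (fun w : ℂ => c.re / 2 * Real.exp (σ * w.re)) (Fq θ) atTop :=
  (Real.tendsto_exp_atTop.comp ((re_atTop θ).const_mul_atTop h.1)).const_mul_atTop
    (half_pos h.2.2.1)

theorem Far.norm_ge (h : Far (Fq θ) b κ) (d : ℝ) {k : ℝ} (hk : k < |κ|) :
    ∀ᶠ w in Fq θ, k * Real.exp w.re ≤ ‖b w - d‖ := by
  have h1 := (h.congr (Fq_le θ) (b' := fun w => b w - d) (d := -(d : ℂ))
    (tendsto_const_nhds.congr fun w => by ring)).2.norm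
  rw [norm_real, Real.norm_eq_abs] at h1
  filter_upwards [h1.eventually (eventually_ge_nhds hk)] with w hw
  rwa [norm_div, norm_exp, le_div_iff₀ (Real.exp_pos _)] at hw

theorem Far.re_le (hθ : θ ≤ 1) (h : Far (Fq θ) b κ) (hκ : κ ≤ -1) (d : ℝ) :
    ∀ᶠ w in Fq θ, (b w - d).re ≤ -(1 / 4) * Real.exp w.re := by
  have h1 := tendsto_iff_norm_sub_tendsto_zero.1 (h.congr (Fq_le θ) (b' := fun w => b w - d)
    (d := -(d : ℂ)) (tendsto_const_nhds.congr fun w => by ring)).2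
  filter_upwards [h1.eventually (eventually_le_nhds (show (0 : ℝ) < 1 / 4 by norm_num)), ev_im θ]
    with w hw hy
  have e : b w - d = κ * exp w + ((b w - d) / exp w - κ) * exp w := by
    have := exp_ne_zero w
    field_simp; ring
  have h2 : w.im ^ 2 ≤ 1 := by rw [← sq_abs]; nlinarith [abs_nonneg w.im]
  have h3 := Real.one_sub_sq_div_two_le_cos (x := w.im)
  have h4 := re_le_norm (((b w - d) / exp w - κ) * exp w)
  have h5 := Real.exp_pos w.re
  rw [norm_mul, norm_exp] at h4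
  rw [e, add_re, re_ofReal_mul, exp_re]
  have : 1 / 2 * Real.exp w.re ≤ Real.exp w.re * Real.cos w.im := by nlinarith
  nlinarith

theorem adm_of {B δ : ℝ} {z : ℂ} (hB : 0 ≤ B) (hδ : 0 < δ)
    (h : B < ‖z‖ ∨ z.re ≤ 0 ∧ B ^ 2 < (1 + 2 * δ) * ‖z‖ ^ 2) : ‖B + δ * z‖ < (1 + δ) * ‖z‖ := by
  rcases h with h | ⟨h1, h2⟩
  · refine (norm_add_le _ _).trans_lt ?_
    rw [norm_mul, norm_real, norm_real, Real.norm_of_nonneg hB, Real.norm_of_nonneg hδ.le]
    linarith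
  · refine lt_of_pow_lt_pow_left₀ 2 (by positivity) ?_
    rw [mul_pow, Complex.sq_norm, Complex.sq_norm, normSq_apply, normSq_apply] at *
    simp only [add_re, add_im, ofReal_re, ofReal_im, re_ofReal_mul, im_ofReal_mul]
    nlinarith [mul_nonneg (mul_nonneg hδ.le hB) (neg_nonneg.2 h1)]

theorem mem_DB {B δ : ℝ} {a z : ℂ} (hB : 0 < B) (ha : a * z = -2)
    (h : ‖B + δ * z‖ < (1 + δ) * ‖z‖) : a ∈ B2.DB δ B := by
  have hz : z ≠ 0 := fun h => by simp [h] at ha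
  have hB' : (B : ℂ) ≠ 0 := by exact_mod_cast hB.ne'
  have e : a - ((2 * δ / B : ℝ) : ℂ) = -2 * (B + δ * z) / (z * B) := by
    rw [eq_div_of_mul_eq hz ha]; push_cast; field_simp; ring
  rw [B2.DB, mem_ball_iff_norm, e, norm_div, norm_mul, norm_mul, norm_neg, norm_real,
    Real.norm_of_nonneg hB.le, div_lt_div_iff₀ (mul_pos (norm_pos_iff.2 hz) hB) hB]
  simp only [Complex.norm_ofNat]
  nlinarith

theorem DB_mono {δ B B' : ℝ} (hδ : 0 ≤ δ) (h0 : 0 < B') (h : B' ≤ B) : B2.DB δ B ⊆ B2.DB δ B' := by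
  refine Metric.ball_subset_ball' ?_
  have hB : 0 < B := h0.trans_le h
  have h1 : 1 / B ≤ 1 / B' := one_div_le_one_div_of_le h0 h
  rw [dist_eq_norm, ← ofReal_sub, norm_real, Real.norm_eq_abs, abs_sub_comm,
    show 2 * δ / B' - 2 * δ / B = 2 * δ * (1 / B' - 1 / B) by ring, abs_of_nonneg
      (mul_nonneg (by positivity) (sub_nonneg.2 h1)), div_eq_mul_one_div _ B,
    div_eq_mul_one_div (2 * (1 + δ)) B']
  nlinarith

/-- **admissibility**, with room `1 / 4` in `b` -/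
theorem Cls.adm (hθ : θ ≤ 1) (h : Cls (Fq θ) b) {δ : ℝ} (hδ : 0 < δ) (d : ℝ) :
    ∀ᶠ w in Fq θ, 0 < hh w - d - 1 ∧ ∀ z a : ℂ, ‖z - b w‖ ≤ 1 / 4 → a * (z - d) = -2 →
      a ∈ B2.DB δ (hh w - d - 1) := by
  have h0 := (hh_atTop hθ).eventually (eventually_gt_atTop (d + 1))
  have hz : ∀ w z : ℂ, ‖z - b w‖ ≤ 1 / 4 → ‖b w - d‖ - 1 / 4 ≤ ‖z - d‖ := fun w z hz => by
    have := norm_sub_le (z - d) (z - b w)
    rw [show z - d - (z - b w) = b w - d by ring] at this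
    linarith
  have fin : (∀ᶠ w in Fq θ, hh w - d - 1 / 2 ≤ ‖b w - d‖) →
      ∀ᶠ w in Fq θ, 0 < hh w - d - 1 ∧ ∀ z a : ℂ, ‖z - b w‖ ≤ 1 / 4 → a * (z - d) = -2 →
        a ∈ B2.DB δ (hh w - d - 1) := fun H => by
    filter_upwards [H, h0] with w hw h1
    exact ⟨by linarith, fun z a h2 h3 => mem_DB (by linarith) h3
      (adm_of (by linarith) hδ (Or.inl (by linarith [hz w z h2])))⟩
  rcases h with ⟨γ, e, he, h⟩ | ⟨γ, σ, c, h⟩ | ⟨κ, h⟩
  · exact fin ((h.norm_ge hθ d one_half_pos).mono fun w hw => by linarith)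
  · refine fin ?_
    filter_upwards [h.norm_ge hθ d, h.gap.eventually (eventually_ge_atTop (-d))] with w h1 h2
    linarith [h1.1]
  rcases h.1 with hκ | hκ
  · refine fin ?_
    filter_upwards [h.norm_ge d (k := (1 + κ) / 2) (lt_of_lt_of_le (by linarith) (le_abs_self κ)),
      ((exp_atTop θ).const_mul_atTop (show 0 < (κ - 1) / 2 by linarith)).eventually
        (eventually_ge_atTop (-d))] with w h1 h2
    linarith [hh_le w]
  · obtain ⟨ε, ε0, hε⟩ : ∃ ε : ℝ, 0 < ε ∧ ε < 1 / 4 ∧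
        (1 + ε) ^ 2 < (1 + 2 * δ) * (1 - 2 * ε) ^ 2 := by
      have hc : ContinuousAt (fun ε : ℝ => (1 + 2 * δ) * (1 - 2 * ε) ^ 2 - (1 + ε) ^ 2) 0 := by
        fun_prop
      have := (hc.eventually (lt_mem_nhds (show (0 : ℝ) < _ by simpa using hδ))).and
        (gt_mem_nhds (show (0 : ℝ) < 1 / 4 by norm_num))
      obtain ⟨ε, h1, h2⟩ := ((this.filter_mono nhdsWithin_le_nhds).and
        (self_mem_nhdsWithin (s := Ioi (0 : ℝ)))).exists
      exact ⟨ε, h2, h1.2, by linarith [h1.1]⟩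
    filter_upwards [h.norm_ge d (k := 1 - ε) (lt_of_lt_of_le (by linarith) (neg_le_abs κ)),
      h.re_le hθ hκ d, h0, ((exp_atTop θ).const_mul_atTop ε0).eventually
        (eventually_ge_atTop (|d| + 1 / 4))] with w h1 h2 h3 h4
    refine ⟨by linarith, fun z a h5 h6 => mem_DB (by linarith) h6
      (adm_of (by linarith) hδ (Or.inr ⟨?_, ?_⟩))⟩
    · have := re_le_norm (z - b w)
      rw [show z - d = (z - b w) + (b w - d) by ring, add_re]
      nlinarith [abs_nonneg d, Real.exp_pos w.re]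
    · have r0 := Real.exp_pos w.re
      have a1 : (1 - 2 * ε) * Real.exp w.re ≤ ‖z - d‖ := by linarith [hz w z h5, abs_nonneg d]
      have a2 : hh w - d - 1 ≤ (1 + ε) * Real.exp w.re := by linarith [hh_le w, neg_le_abs d]
      calc (hh w - d - 1) ^ 2 ≤ ((1 + ε) * Real.exp w.re) ^ 2 := by gcongr; linarith
        _ < (1 + 2 * δ) * ((1 - 2 * ε) * Real.exp w.re) ^ 2 := by
          rw [mul_pow, mul_pow, ← mul_assoc]; exact mul_lt_mul_of_pos_right hε.2 (by positivity)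
        _ ≤ _ := by
          have : 0 ≤ (1 - 2 * ε) * Real.exp w.re := mul_nonneg (by linarith [hε.1]) r0.le
          gcongr

/-- `1 + |s| ≤ C (1 + ‖u‖)` about the centre `sig γ` -/
def Ctr (θ : ℝ) (b : ℂ → ℂ) (γ : ℝ) : Prop :=
  ∃ C x₀ : ℝ, 0 < C ∧ ∀ x s, pt (sig γ) x s ∈ QQ x₀ θ →
    1 + |s| ≤ C * (1 + ‖b (pt (sig γ) x s) - hh (pt (sig γ) x s)‖)

theorem ctr_of (hθ : θ ≤ 1) {K : ℝ} (hK : 0 ≤ K)
    (h : ∀ᶠ w in Fq θ, ‖b w - ze γ w ^ 2‖ ≤ K * (1 + ‖b w - hh w‖)) : Ctr θ b γ := by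
  obtain ⟨x₀, H⟩ := ev_Fq.1 (h.and ((half_atTop.comp (re_atTop θ)).eventually
    (eventually_ge_atTop |γ|)))
  refine ⟨2 * (1 + K + γ ^ 2), x₀, by positivity, fun x s hx => ?_⟩
  obtain ⟨h1, h2⟩ := H _ hx
  rw [Function.comp, pt_re] at h2
  have h3 := im_ze_ge (hx.2.trans hθ) h2
  set w := pt (sig γ) x s
  have h4 : (ze γ w ^ 2).im = (b w - hh w - (b w - ze γ w ^ 2)).im := by simp
  have h5 := (abs_im_le_norm _).trans (norm_sub_le (b w - hh w) (b w - ze γ w ^ 2))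
  rw [← h4] at h5
  have h6 := norm_nonneg (b w - hh w)
  nlinarith [sq_nonneg γ, mul_nonneg (sq_nonneg γ) h6, mul_nonneg hK h6]

theorem Tie.ctr (hθ : θ ≤ 1) (h : Tie (Fq θ) b γ e) : Ctr θ b γ :=
  ctr_of hθ (K := ‖(e : ℂ)‖ + 1) (by positivity)
    ((h.ze.norm.eventually (eventually_le_nhds (lt_add_one _))).mono fun w hw =>
      hw.trans (le_mul_of_one_le_right (by positivity) (by simp)))

theorem norm_sub_hh {w : ℂ} (z : ℂ) (h : |w.im| ≤ 1) : ‖z‖ - hh w ≤ ‖z - hh w‖ := by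
  have := norm_sub_norm_le z (hh w)
  rwa [norm_real, Real.norm_of_nonneg (hh_pos h).le] at this

theorem Mid.far (hθ : θ ≤ 1) (h : Mid (Fq θ) b γ σ c) :
    Tendsto (fun w => ‖b w - hh w‖) (Fq θ) atTop := by
  refine tendsto_atTop_mono' _ ?_ h.gap
  filter_upwards [h.norm_ge hθ 0, ev_im θ] with w h1 h2
  have := norm_sub_hh (b w) (h2.trans hθ)
  have h3 := h1.1
  rw [ofReal_zero, sub_zero] at h3
  linarith

theorem Mid.ctr (hθ : θ ≤ 1) (h : Mid (Fq θ) b γ σ c) : Ctr θ b γ := by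
  have c0 := h.2.2.1
  refine ctr_of hθ (K := (‖c‖ + 1) / (c.re / 2)) (by positivity) ?_
  filter_upwards [h.norm_ge hθ 0, ev_im θ] with w h1 h2
  have := norm_sub_hh (b w) (h2.trans hθ)
  rw [ofReal_zero, sub_zero, sub_zero] at h1
  refine h1.2.trans ?_
  rw [div_mul_eq_mul_div, mul_div_assoc]
  gcongr
  rw [le_div_iff₀ (half_pos c0)]
  linarith [h1.1]

theorem Far.lin (hθ : θ ≤ 1) (h : Far (Fq θ) b κ) :
    ∃ k, 0 < k ∧ ∀ᶠ w in Fq θ, k * Real.exp w.re ≤ ‖b w - hh w‖ := by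
  rcases h.1 with hκ | hκ
  · refine ⟨(κ - 1) / 2, by linarith, ?_⟩
    filter_upwards [h.norm_ge 0 (k := (1 + κ) / 2) (lt_of_lt_of_le (by linarith) (le_abs_self κ)),
      ev_im θ] with w h1 h2
    rw [ofReal_zero, sub_zero] at h1
    linarith [norm_sub_hh (b w) (h2.trans hθ), hh_le w]
  · refine ⟨1 / 4, by norm_num, ?_⟩
    filter_upwards [h.re_le hθ hκ 0, ev_im θ] with w h1 h2
    rw [ofReal_zero, sub_zero] at h1
    have := neg_le_of_abs_le (abs_re_le_norm (b w - hh w))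
    rw [sub_re, ofReal_re] at this
    linarith [hh_pos (h2.trans hθ)]

theorem Far.far (hθ : θ ≤ 1) (h : Far (Fq θ) b κ) :
    Tendsto (fun w => ‖b w - hh w‖) (Fq θ) atTop := by
  obtain ⟨k, k0, H⟩ := h.lin hθ
  exact tendsto_atTop_mono' _ H ((exp_atTop θ).const_mul_atTop k0)

/-- any end with `‖u‖ ≥ k ρ` is centred at `0` -/
theorem ctr_of_lin (hθ : θ ≤ 1) {k : ℝ} (k0 : 0 < k)
    (H : ∀ᶠ w in Fq θ, k * Real.exp w.re ≤ ‖b w - hh w‖) : Ctr θ b 0 := by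
  obtain ⟨x₀, H⟩ := ev_Fq.1 H
  refine ⟨1 + k⁻¹, x₀, by positivity, fun x s hx => ?_⟩
  have h1 := H _ hx
  have h2 := hx.2.trans hθ
  rw [pt_re] at h1
  rw [pt_im, sig, neg_zero, zero_mul, add_zero, abs_div, abs_of_pos (Real.exp_pos x),
    div_le_one (Real.exp_pos x)] at h2
  have h3 := (le_inv_mul_iff₀ k0).2 h1
  have h4 := norm_nonneg (b (pt (sig 0) x s) - hh (pt (sig 0) x s))
  nlinarith [inv_pos.2 k0]

theorem Far.ctr (hθ : θ ≤ 1) (h : Far (Fq θ) b κ) : Ctr θ b 0 := by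
  obtain ⟨k, k0, H⟩ := h.lin hθ
  exact ctr_of_lin hθ k0 H

theorem ze_lim (γ s : ℝ) : Tendsto (fun x => ze γ (pt (sig γ) x s) ^ 2 - hh (pt (sig γ) x s)) atTop
    (𝓝 (((γ ^ 2 / 8 : ℝ) : ℂ) + s * I)) := by
  have hy := tendsto_y γ s
  have hs := tendsto_sy γ s
  have hc : Tendsto (fun x => Real.cos ((pt (sig γ) x s).im / 2)) atTop (𝓝 1) := by
    have := (Real.continuous_cos.tendsto _).comp (hy.div_const 2)
    rwa [zero_div, Real.cos_zero] at this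
  have h3 : Tendsto (fun x => Real.exp x *
      ((pt (sig γ) x s).im - 2 * Real.sin ((pt (sig γ) x s).im / 2))) atTop (𝓝 0) := by
    have := ((hs.abs.pow 2).mul hy.abs).div_const 16
    rw [abs_zero, mul_zero, zero_div] at this
    refine squeeze_zero_norm' ?_ this
    filter_upwards [(tendsto_pt one_pos γ s).eventually (ev_im 1)] with x hx
    rw [norm_mul, Real.norm_of_nonneg (Real.exp_pos x).le, Real.norm_eq_abs, abs_mul, mul_pow,
      sq_abs (Real.exp _), exp_half_sq]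
    nlinarith [sin_cube hx, Real.exp_pos x]
  have h4 : Tendsto (fun x => Real.exp (x / 2) * Real.sin ((pt (sig γ) x s).im / 2)) atTop
      (𝓝 (-γ / 2)) := by
    have := (hs.sub (half_inv.mul h3)).div_const 2
    rw [zero_mul, sub_zero] at this
    refine this.congr fun x => ?_
    rw [← exp_half_sq x]
    have := Real.exp_pos (x / 2)
    generalize Real.exp (x / 2) = r at *
    field_simp; ring
  have hre := ((((hs.pow 2).const_mul (3 / 8)).sub (h4.pow 2)).sub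
    ((h4.add_const (γ / 2)).pow 2))
  have him := hc.mul ((tendsto_const_nhds (x := s)).sub h3)
  have := ((continuous_ofReal.tendsto _).comp hre).add
    (((continuous_ofReal.tendsto _).comp him).mul_const I)
  rw [show 3 / 8 * (-γ) ^ 2 - (-γ / 2) ^ 2 - (-γ / 2 + γ / 2) ^ 2 = γ ^ 2 / 8 by ring, sub_zero,
    one_mul] at this
  refine this.congr fun x => ?_
  simp only [Function.comp, ← im_ze_sq]
  refine Complex.ext ?_ (by
    rw [add_im, ofReal_im, mul_I_im, ofReal_re, sub_im, ofReal_im, zero_add, sub_zero])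
  have e : (ze γ (pt (sig γ) x s) ^ 2).re = (ze γ (pt (sig γ) x s)).re ^ 2 -
      (ze γ (pt (sig γ) x s)).im ^ 2 := by rw [sq, mul_re]; ring
  rw [add_re, ofReal_re, mul_I_re, ofReal_im, sub_re, ofReal_re, e, ze_re, ze_im, hh, chi, pt_re,
    ← exp_half_sq x]
  linear_combination (-Real.exp (x / 2) ^ 2) * Real.sin_sq_add_cos_sq ((pt (sig γ) x s).im / 2)

/-- the limit of `u = b - hh` for a tie -/
theorem Tie.lim (hθ : 0 < θ) (h : Tie (Fq θ) b γ e) (s : ℝ) :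
    Tendsto (fun x => b (pt (sig γ) x s) - hh (pt (sig γ) x s)) atTop
      (𝓝 (((e + γ ^ 2 / 8 : ℝ) : ℂ) + s * I)) := by
  have := (h.ze.comp (tendsto_pt hθ γ s)).add (ze_lim γ s)
  rw [ofReal_add, add_assoc]
  exact this.congr fun x => by simp only [Function.comp]; ring

/-- **summary**: every end has a centre, and is far or a tie -/
theorem Cls.geo (h0 : 0 < θ) (hθ : θ ≤ 1) (h : Cls (Fq θ) b) : ∃ γ, Ctr θ b γ ∧
    (Tendsto (fun w => ‖b w - hh w‖) (Fq θ) atTop ∨ ∃ d : ℝ, 0 ≤ d ∧ ∀ s : ℝ,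
      Tendsto (fun x => b (pt (sig γ) x s) - hh (pt (sig γ) x s)) atTop (𝓝 (d + s * I))) := by
  rcases h with ⟨γ, e, he, h⟩ | ⟨γ, σ, c, h⟩ | ⟨κ, h⟩
  · exact ⟨γ, h.ctr hθ, Or.inr ⟨_, by positivity, h.lim h0⟩⟩
  · exact ⟨γ, h.ctr hθ, Or.inl (h.far hθ)⟩
  · exact ⟨0, h.ctr hθ, Or.inl (h.far hθ)⟩

end cls

end Crest.Agent.N250.Ti
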