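import Crest.Agent.N250.Ti.Adm
import Crest.Agent.N250.Ov.Cont
import Crest.Agent.N250.Cc.Geo
import Crest.Agent.N250.B2.Fam

/-!
# Row 250, block B2 (helper1): from the curve `Cv` to the classes of the ends; admissibility.
-/

set_option autoImplicit false
set_option linter.unusedSectionVars false
open Set Filter Topology Complex Polynomial Metric

noncomputable section

namespace Crest.Agent.N250.Ti
open St B2 Cc Ov

theorem laurent (q : ℕ) {A : ℝ[X]} (hA : A.coeff 0 ≠ 0) : ∃ P : ℝ[X], P.natDegree = q ∧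
    P.leadingCoeff = (A.coeff 0)⁻¹ ∧
    Tendsto (fun t : ℂ => (t ^ q * aeval t A)⁻¹ - aeval t⁻¹ P) (𝓝[≠] 0) (𝓝 0) := by
  obtain ⟨U, V, h⟩ : IsCoprime (X ^ (q + 1)) A :=
    (irreducible_X.coprime_iff_not_dvd.2 (by rwa [X_dvd_iff])).pow_left
  have hm : (X ^ (q + 1) : ℝ[X]).Monic := monic_X_pow _
  set B := V %ₘ X ^ (q + 1)
  set H := U + V /ₘ X ^ (q + 1) * A
  have e : B * A = 1 - X ^ (q + 1) * H := by
    have := modByMonic_add_div V (X ^ (q + 1))
    simp only [B, H]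
    linear_combination h + A * this
  have hB : B.natDegree ≤ q := by
    refine natDegree_le_iff_degree_le.2 (Order.le_of_lt_succ ?_)
    have := degree_modByMonic_lt V hm
    rwa [degree_X_pow] at this
  have h0 : B.coeff 0 = (A.coeff 0)⁻¹ := by
    have := congrArg (coeff · 0) e
    simp only [mul_coeff_zero, coeff_sub, coeff_one_zero, coeff_X_pow, Nat.zero_ne_add_one,
      if_false, zero_mul, sub_zero] at this
    exact eq_inv_of_mul_eq_one_left this
  have hc : (reflect q B).coeff q = (A.coeff 0)⁻¹ := by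
    rw [coeff_reflect, revAt_le le_rfl, Nat.sub_self, h0]
  have hd : (reflect q B).natDegree = q := natDegree_eq_of_le_of_coeff_ne_zero
    (natDegree_reflect_le.trans (max_le le_rfl hB)) (by rw [hc]; exact inv_ne_zero hA)
  refine ⟨reflect q B, hd, by rw [leadingCoeff, hd, hc], ?_⟩
  have hA0 : aeval (0 : ℂ) A ≠ 0 := by
    rw [← coeff_zero_eq_aeval_zero', Complex.coe_algebraMap]; exact_mod_cast hA
  have cA := (A.continuous_aeval (A := ℂ)).tendsto 0
  have l := ((continuous_id.tendsto (0 : ℂ)).mul ((H.continuous_aeval (A := ℂ)).tendsto 0)).div cA hA0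
  simp only [id, zero_mul, zero_div] at l
  refine (l.mono_left nhdsWithin_le_nhds).congr' ?_
  filter_upwards [self_mem_nhdsWithin, (cA.eventually_ne hA0).filter_mono nhdsWithin_le_nhds]
    with t ht hne
  have ht : t ≠ 0 := ht
  have : Invertible t := invertibleOfNonzero ht
  have e1 := eval₂_reflect_mul_pow (algebraMap ℝ ℂ) t q B hB
  rw [invOf_eq_inv, ← aeval_def, ← aeval_def] at e1
  have e2 := congrArg (aeval t) e
  simp only [map_mul, map_sub, map_one, map_pow, aeval_X] at e2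
  simp only [Pi.div_apply]
  rw [eq_div_of_mul_eq (pow_ne_zero q ht) e1]
  field_simp
  linear_combination e2

theorem Cls.mono {l l' : Filter ℂ} (hl : l ≤ Fr) (hl' : l' ≤ l) {b : ℂ → ℂ} (h : Cls l b) :
    Cls l' b := h.congr hl hl' (tendsto_const_nhds.congr fun _ => (sub_self _).symm)

variable {ι κ Γ : Type}

/-- the shifted exponent `b_j + d_j` of the end `j` along the curve -/
def bb (d : κ → ℝ) (Z : ℝ → ℂ → ι ⊕ κ → ℂ) (T : ℂ → ℂ) (j : κ) (w : ℂ) : ℂ :=
  -2 / aa (zz Z T w) j + d j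

theorem mul_bb {d : κ → ℝ} {Z : ℝ → ℂ → ι ⊕ κ → ℂ} {T : ℂ → ℂ} {j : κ} {w : ℂ}
    (h : aa (zz Z T w) j ≠ 0) (B : ℝ) :
    aa (zz Z T w) j * ((B - d j : ℝ) + (bb d Z T j w - B)) = -2 := by
  rw [bb]; push_cast; field_simp; ring

variable [Fintype ι] [Fintype κ]

/-- the ends along the curve -/
structure Brg (P : ℕ → ι ⊕ κ → ℝ) (q : ℕ) (d : κ → ℝ) (Z : ℝ → ℂ → ι ⊕ κ → ℂ) (T : ℂ → ℂ)
    (j₀ : κ) : Prop where
  cls : ∀ j, P q (Sum.inr j) ≠ 0 → Cls Fr (bb d Z T j)
  low : ∀ j, P q (Sum.inr j) ≠ 0 → ∃ k, 0 < k ∧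
    ∀ᶠ w in Fr, k ≤ ‖aa (zz Z T w) j‖ * Real.exp w.re
  top : P q (Sum.inr j₀) ≠ 0 ∧ Tie Fr (bb d Z T j₀) 0 0
  high : ∀ j, P q (Sum.inr j) = 0 →
    Tendsto (fun w => ‖aa (zz Z T w) j‖ * Real.exp w.re) Fr (𝓝 0)
  zero : Tendsto (zz Z T) Fr (𝓝 0)

variable {P : ℕ → ι ⊕ κ → ℝ} {q : ℕ} {d : κ → ℝ} {Z : ℝ → ℂ → ι ⊕ κ → ℂ} {T : ℂ → ℂ} {j₀ : κ}

theorem Brg.ne (h : Brg P q d Z T j₀) {j : κ} (hj : P q (Sum.inr j) ≠ 0) :
    ∀ᶠ w in Fr, aa (zz Z T w) j ≠ 0 := by
  obtain ⟨k, k0, H⟩ := h.low j hj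
  exact H.mono fun w hw e => by rw [e, norm_zero, zero_mul] at hw; linarith

theorem exp_neg_zero : Tendsto (fun w : ℂ => Real.exp (-w.re)) Fr (𝓝 0) :=
  Real.tendsto_exp_neg_atTop_nhds_zero.comp tendsto_re

theorem Brg.adm (h : Brg P q d Z T j₀) {r δ θ : ℝ} (hr : 0 < r) (hδ : 0 < δ) (hθ : θ ≤ 1) :
    Ov.Adm r δ d Z T θ := by
  refine ⟨3, ev_Fq.1 ?_⟩
  have h1 : ∀ᶠ w in Fr, ‖zz Z T w‖ + Real.exp (-w.re) ^ 3 < r := by
    have := h.zero.norm.add (exp_neg_zero.pow 3)
    simp only [norm_zero, ne_eq, OfNat.ofNat_ne_zero, not_false_eq_true, zero_pow, add_zero] at this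
    exact this.eventually (gt_mem_nhds hr)
  have h2 : ∀ j, ∀ᶠ w in Fq θ, ∀ a : ℂ, ‖a - aa (zz Z T w) j‖ < Real.exp (-w.re) ^ 3 →
      a ∈ DB δ (hh w - d j - 1) := fun j => by
    by_cases hj : P q (Sum.inr j) = 0
    · have l := (h.high j hj).add (exp_neg_zero.pow 2)
      simp only [ne_eq, OfNat.ofNat_ne_zero, not_false_eq_true, zero_pow, add_zero] at l
      filter_upwards [(l.eventually (gt_mem_nhds one_pos)).filter_mono (Fq_le θ),
        (hh_atTop hθ).eventually (eventually_gt_atTop (d j + 1)),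
        (exp_atTop θ).eventually (eventually_ge_atTop |d j|)] with w a1 a2 a3 a ha
      refine ball_sub_DB hδ.le (by linarith) (mem_ball_zero_iff.2 ?_)
      have r0 := Real.exp_pos w.re
      have e : Real.exp (-w.re) ^ 3 * Real.exp w.re = Real.exp (-w.re) ^ 2 := by
        rw [Real.exp_neg]; field_simp
      have b1 : ‖a‖ ≤ Real.exp (-w.re) ^ 3 + ‖aa (zz Z T w) j‖ := by
        linarith [norm_sub_norm_le a (aa (zz Z T w) j)]
      have b2 : ‖a‖ * Real.exp w.re < 1 := by nlinarith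
      rw [lt_div_iff₀ (by linarith)]
      have b3 : hh w - d j - 1 ≤ 2 * Real.exp w.re := by linarith [Ti.hh_le w, neg_le_abs (d j)]
      nlinarith [norm_nonneg a]
    · obtain ⟨k, k0, H⟩ := h.low j hj
      filter_upwards [H.filter_mono (Fq_le θ), ((h.cls j hj).mono le_rfl (Fq_le θ)).adm hθ hδ (d j),
        (exp_neg_zero.eventually (ge_mem_nhds (show 0 < min (k ^ 2 / 16) (min 1 (k / 2)) by
          positivity))).filter_mono (Fq_le θ)] with w a1 a2 a3 a ha
      set a₀ := aa (zz Z T w) j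
      set η := Real.exp (-w.re) with hη
      have η0 : 0 < η := Real.exp_pos _
      simp only [le_min_iff] at a3
      have b0 : k * η ≤ ‖a₀‖ := by
        rw [hη, Real.exp_neg, ← div_eq_mul_inv, div_le_iff₀ (Real.exp_pos _)]; exact a1
      have b1 : k / 2 * η ≤ ‖a‖ := by
        have : η ^ 3 ≤ k / 2 * η := by nlinarith [mul_le_mul a3.2.1 a3.2.2 η0.le zero_le_one]
        linarith [norm_sub_norm_le a₀ a, norm_sub_rev a a₀]
      have n0 : 0 < ‖a₀‖ := lt_of_lt_of_le (by positivity) b0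
      have n1 : 0 < ‖a‖ := lt_of_lt_of_le (by positivity) b1
      have m0 := norm_pos_iff.1 n0
      have m1 := norm_pos_iff.1 n1
      refine a2.2 (-2 / a + d j) a ?_ (by field_simp; ring)
      have e : -2 / a + d j - bb d Z T j w = 2 * (a - a₀) / (a * a₀) := by
        change _ - (-2 / a₀ + d j) = _
        field_simp; ring
      rw [e, norm_div, norm_mul, norm_mul, Complex.norm_ofNat, div_le_iff₀ (mul_pos n1 n0)]
      have c1 : k / 2 * η * (k * η) ≤ ‖a‖ * ‖a₀‖ := by gcongr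
      nlinarith [mul_le_mul_of_nonneg_left a3.1 (sq_nonneg η)]
  filter_upwards [h1.filter_mono (Fq_le θ), eventually_all.2 h2] with w a1 a2 z hz
  rw [mem_ball_iff_norm] at hz
  refine ⟨fun i => ?_, fun j => a2 j _ ((norm_le_pi_norm (z - zz Z T w) _).trans_lt hz)⟩
  linarith [norm_le_pi_norm z (Sum.inl i), norm_sub_norm_le z (zz Z T w)]

variable [DecidableEq κ] {Q : Cells Γ} {F : (κ → Γ) → (ι ⊕ κ → ℂ) → ℂ}
  {r al lam Lam th s1 C1 : ℝ} {N : ℕ} {f0 : ℂ}

theorem cv_fac (hO : Ord P q al) (hN : q + 1 ≤ N) (j : κ) : ∃ A : ℝ[X],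
    A.coeff 0 = P q (Sum.inr j) ∧ ∀ t : ℂ, cv P N t (Sum.inr j) = t ^ q * aeval t A := by
  obtain ⟨n, rfl⟩ := Nat.exists_eq_add_of_le hN
  refine ⟨∑ m ∈ Finset.range (1 + n), monomial m (P (q + m) (Sum.inr j)), ?_, fun t => ?_⟩
  · simp [finsetSum_coeff, coeff_monomial]
  · rw [cv_apply, add_assoc, Finset.sum_range_add, Finset.sum_eq_zero fun m hm => by
      rw [hO.low m (Finset.mem_range.1 hm), ofReal_zero, mul_zero], zero_add, map_sum,
      Finset.mul_sum]
    refine Finset.sum_congr rfl fun m _ => ?_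
    rw [aeval_monomial, Complex.coe_algebraMap, pow_add]; ring

/-- **bridge** -/
theorem bridge (hO : Ord P q al) (hC : Cv Q F r P q al lam Lam th s1 C1 N f0 Z)
    (hN : 2 * q + 1 ≤ N) (hL : 1 < Lam) (d : κ → ℝ) :
    ∃ (T : ℂ → ℂ) (R : ℝ) (j₀ : κ), Tin T al q R ∧ Brg P q d Z T j₀ := by
  have hq := hO.q_pos
  have ha := hO.al_pos
  choose A hA0 hA using cv_fac hO (show q + 1 ≤ N by omega)
  obtain ⟨j₁, h1⟩ : ∃ j, |P q (Sum.inr j)| = al := by
    by_contra hc
    push Not at hc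
    have : ‖aa (P q)‖ < al := (pi_norm_lt_iff ha).2 fun j => (hO.abs_le j).lt_of_ne (hc j)
    exact this.ne hO.al_eq.symm
  set D := {j // P q (Sum.inr j) ≠ 0}
  have : Nonempty D := ⟨⟨j₁, fun h => by rw [h, abs_zero] at h1; exact ha.ne h1⟩⟩
  choose L hL1 hL2 hL3 using fun j : D => laurent q (A := A j.1) (by rw [hA0]; exact j.2)
  have hd : ∀ j : D, (C (-2) * L j).natDegree = q := fun j => by
    rw [natDegree_C_mul (by norm_num), hL1]
  have hlc : ∀ j : D, |(C (-2) * L j + C (d j.1)).leadingCoeff| = 2 / |P q (Sum.inr j.1)| :=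
    fun j => by
      rw [leadingCoeff_add_of_degree_lt' (degree_C_le.trans_lt
        (natDegree_pos_iff_degree_pos.1 (by rw [hd]; exact hq))), leadingCoeff_mul, leadingCoeff_C,
        hL2, hA0, abs_mul, abs_inv, abs_neg, abs_two, div_eq_mul_inv]
  obtain ⟨j₀, T, R, β, β0, e0, e1, t1, t2, t3, t4⟩ := ties (fun j : D => C (-2) * L j + C (d j.1)) hq
    fun j => by rw [natDegree_add_C, hd]
  have hβ : β = 2 / al := by
    refine le_antisymm ?_ ?_
    · have := e1 ⟨j₁, fun h => by rw [h, abs_zero] at h1; exact ha.ne h1⟩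
      rwa [hlc, h1] at this
    · rw [e0, hlc]
      exact div_le_div_of_nonneg_left zero_le_two (abs_pos.2 j₀.2) (hO.abs_le _)
  have hT : Tin T al q R := ⟨t1, fun w hw => (t2 w hw).1, hβ ▸ t3⟩
  have ev := tendsto_re.eventually (eventually_gt_atTop R)
  -- size of `t`
  have s1' : Tendsto (fun w => ‖(T w)⁻¹‖ ^ q * Real.exp w.re) Fr (𝓝 β) := by
    have := (t3.inv₀ one_ne_zero).const_mul β
    rw [inv_one, mul_one] at this
    refine this.congr fun w => ?_
    rw [norm_inv, inv_pow, inv_div, mul_div_assoc', mul_div_mul_left _ _ β0.ne', div_eq_inv_mul]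
  have s2 : Tendsto (fun w => ‖(T w)⁻¹‖) Fr (𝓝 0) := by
    have := s1'.mul exp_neg_zero
    rw [mul_zero] at this
    refine tendsto_order.2 ⟨fun a h => Eventually.of_forall fun w => h.trans_le (norm_nonneg _),
      fun a h => (this.eventually (gt_mem_nhds (pow_pos h q))).mono fun w hw => ?_⟩
    rw [mul_assoc, ← Real.exp_add, add_neg_cancel, Real.exp_zero, mul_one] at hw
    exact lt_of_pow_lt_pow_left₀ q h.le hw
  have s3 : Tendsto (fun w => (T w)⁻¹) Fr (𝓝[≠] 0) := tendsto_nhdsWithin_iff.2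
    ⟨tendsto_zero_iff_norm_tendsto_zero.2 s2, ev.mono fun w hw => inv_ne_zero (t2 w hw).1⟩
  have s4 := s2.eventually (ge_mem_nhds one_pos)
  have near : ∀ᶠ w in Fr, ‖zz Z T w - cv P N (T w)⁻¹‖ ≤ |C1| * ‖(T w)⁻¹‖ ^ N := by
    obtain ⟨x1, -, -, H⟩ := hT.ev hC.th_lt hL
    obtain ⟨x2, H2⟩ := ev_exp s1
    filter_upwards [tendsto_re.eventually (eventually_ge_atTop x1),
      tendsto_re.eventually (eventually_ge_atTop x2)] with w a1 a2
    exact (hC.near _ (H2 _ a2) _ (H w a1)).trans (by gcongr; exact le_abs_self _)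
  have tail : ∀ n ≤ N, ∃ K, ∀ᶠ w in Fr, ‖zz Z T w - cv P n (T w)⁻¹‖ ≤ K * ‖(T w)⁻¹‖ ^ n :=
    fun n hn => by
      obtain ⟨K, -, H⟩ := cv_tail P hn
      refine ⟨|C1| + K, ?_⟩
      filter_upwards [near, s4] with w a1 a2
      have := pow_le_pow_of_le_one (norm_nonneg _) a2 hn
      have := norm_sub_le_norm_sub_add_norm_sub (zz Z T w) (cv P N (T w)⁻¹) (cv P n (T w)⁻¹)
      nlinarith [H _ a2, abs_nonneg C1]
  -- the level-`q` ends
  have rel : ∀ j n, n < N → Tendsto (fun w => (aa (zz Z T w) j - (T w)⁻¹ ^ q * aeval (T w)⁻¹ (A j)) /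
      (T w)⁻¹ ^ n) Fr (𝓝 0) := fun j n hn => by
    have := s2.const_mul |C1|
    rw [mul_zero] at this
    refine squeeze_zero_norm' ?_ this
    filter_upwards [near, s4, ev] with w a1 a2 a3
    have n0 : 0 < ‖(T w)⁻¹‖ := norm_pos_iff.2 (inv_ne_zero (t2 w a3).1)
    rw [norm_div, norm_pow, div_le_iff₀ (pow_pos n0 n), ← hA, mul_assoc, ← pow_succ']
    exact ((norm_le_pi_norm (zz Z T w - cv P N (T w)⁻¹) (Sum.inr j)).trans a1).trans
      (mul_le_mul_of_nonneg_left (pow_le_pow_of_le_one n0.le a2 hn) (abs_nonneg _))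
  have lA : ∀ j, Tendsto (fun w => aeval (T w)⁻¹ (A j)) Fr (𝓝 (P q (Sum.inr j) : ℂ)) := fun j => by
    have := (((A j).continuous_aeval (A := ℂ)).tendsto 0).comp (s3.mono_right nhdsWithin_le_nhds)
    rwa [← coeff_zero_eq_aeval_zero', hA0, Complex.coe_algebraMap] at this
  have la : ∀ j, Tendsto (fun w => aa (zz Z T w) j / (T w)⁻¹ ^ q) Fr (𝓝 (P q (Sum.inr j) : ℂ)) :=
    fun j => by
      have := (rel j q (by omega)).add (lA j)
      rw [zero_add] at this
      refine this.congr' (ev.mono fun w hw => ?_)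
      have := pow_ne_zero q (inv_ne_zero (t2 w hw).1)
      simp only
      generalize (T w)⁻¹ = t at *
      field_simp; ring
  have ln : ∀ j, Tendsto (fun w => ‖aa (zz Z T w) j‖ * Real.exp w.re) Fr
      (𝓝 (|P q (Sum.inr j)| * β)) := fun j => by
    have := (la j).norm.mul s1'
    rw [norm_real, Real.norm_eq_abs] at this
    refine this.congr' (ev.mono fun w hw => ?_)
    have := pow_ne_zero q (norm_ne_zero_iff.2 (inv_ne_zero (t2 w hw).1))
    simp only [norm_div, norm_pow]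
    generalize ‖(T w)⁻¹‖ = t at *
    field_simp
  have lb : ∀ j : D, Tendsto (fun w => bb d Z T j.1 w - aeval (T w) (C (-2) * L j + C (d j.1))) Fr
      (𝓝 0) := fun j => by
    have hα : (P q (Sum.inr j.1) : ℂ) ≠ 0 := by exact_mod_cast j.2
    have := (((rel j.1 (2 * q) (by omega)).div ((la j.1).mul (lA j.1)) (mul_ne_zero hα hα)).sub
      ((hL3 j).comp s3)).const_mul 2
    simp only [zero_div, sub_zero, mul_zero] at this
    refine this.congr' ?_
    filter_upwards [ev, (la j.1).eventually_ne hα, (lA j.1).eventually_ne hα] with w a1 a2 a3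
    have b1 := pow_ne_zero q (inv_ne_zero (t2 w a1).1)
    have b2 : aa (zz Z T w) j.1 ≠ 0 := fun h => a2 (by rw [h, zero_div])
    simp only [Function.comp, Pi.div_apply, inv_inv, bb, map_add, map_mul, aeval_C,
      Complex.coe_algebraMap, pow_mul']
    generalize (T w)⁻¹ ^ q = τ at *
    generalize aeval (T w)⁻¹ (A j.1) = α at *
    push_cast
    field_simp
    ring
  refine ⟨T, R, j₀.1, hT, fun j hj => (t4 ⟨j, hj⟩).congr le_rfl le_rfl (lb ⟨j, hj⟩), fun j hj => ?_,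
    ⟨j₀.2, tie_self ((lb j₀).congr' (ev.mono fun w hw => by simp only [(t2 w hw).2]))⟩,
    fun j hj => by simpa only [hj, abs_zero, zero_mul] using ln j, ?_⟩
  · have : 0 < |P q (Sum.inr j)| * β := mul_pos (abs_pos.2 hj) β0
    exact ⟨_, half_pos this, (ln j).eventually (eventually_ge_nhds (half_lt_self this))⟩
  · obtain ⟨K, H⟩ := tail 1 (by omega)
    have := s2.const_mul K
    rw [mul_zero] at this
    exact squeeze_zero_norm' (H.mono fun w hw => by rwa [cv_one hO.zero, sub_zero, pow_one] at hw) this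

end Crest.Agent.N250.Ti
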