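import Mathlib

/-!
# Row 250, block B2 (helper1): ties between ends on one Stokes ray (real-x design).

`P j` real polynomials of degree `q`.  There are `j₀` and a holomorphic `T` on a half plane with
`P j₀ (T w) = e^w` such that every `P j (T w)` is a tie, a middle end or a far end.
-/

set_option autoImplicit false
open Set Filter Topology Polynomial Complex

noncomputable section

namespace Crest.Agent.N250.Ti

/-- `re w → +∞` -/
abbrev Fr : Filter ℂ := comap Complex.re atTop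

/-- `b = e^w + iγ e^{w/2} + (e - γ²/4) + o(1)` -/
def Tie (l : Filter ℂ) (b : ℂ → ℂ) (γ e : ℝ) : Prop :=
  Tendsto (fun w => b w - exp w - I * γ * exp (w / 2) - ((e - γ ^ 2 / 4 : ℝ) : ℂ)) l (𝓝 0)

/-- `b = e^w + iγ e^{w/2} + (c + o(1)) e^{σ w}`, `re c > 0` -/
def Mid (l : Filter ℂ) (b : ℂ → ℂ) (γ σ : ℝ) (c : ℂ) : Prop :=
  0 < σ ∧ σ < 1 ∧ 0 < c.re ∧ (γ = 0 ∨ σ < 1 / 2) ∧
    Tendsto (fun w => (b w - exp w - I * γ * exp (w / 2)) / exp (σ * w)) l (𝓝 c)

/-- `b = (κ + o(1)) e^w`, `κ > 1` or `κ ≤ -1` -/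
def Far (l : Filter ℂ) (b : ℂ → ℂ) (κ : ℝ) : Prop :=
  (1 < κ ∨ κ ≤ -1) ∧ Tendsto (fun w => b w / exp w) l (𝓝 (κ : ℂ))

/-- the three classes -/
def Cls (l : Filter ℂ) (b : ℂ → ℂ) : Prop :=
  (∃ γ e : ℝ, 0 ≤ e ∧ Tie l b γ e) ∨ (∃ γ σ c, Mid l b γ σ c) ∨ ∃ κ, Far l b κ

theorem tendsto_re : Tendsto Complex.re Fr atTop := tendsto_comap

theorem tendsto_exp_neg {σ : ℝ} (hσ : 0 < σ) :
    Tendsto (fun w : ℂ => (exp (σ * w))⁻¹) Fr (𝓝 0) := by
  rw [tendsto_zero_iff_norm_tendsto_zero]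
  have := tendsto_inv_atTop_zero.comp
    (Real.tendsto_exp_atTop.comp (tendsto_re.const_mul_atTop hσ))
  refine this.congr fun w => ?_
  simp [norm_exp]

theorem Tie.congr {l : Filter ℂ} {b b' : ℂ → ℂ} {γ e : ℝ} (h : Tie l b γ e)
    (hb : Tendsto (fun w => b' w - b w) l (𝓝 0)) : Tie l b' γ e := by
  have := hb.add h
  rw [add_zero] at this
  exact this.congr fun w => by ring

theorem Mid.congr {l : Filter ℂ} (hl : l ≤ Fr) {b b' : ℂ → ℂ} {γ σ : ℝ} {c : ℂ}
    (h : Mid l b γ σ c) {d : ℂ} (hb : Tendsto (fun w => b' w - b w) l (𝓝 d)) : Mid l b' γ σ c := by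
  obtain ⟨h1, h2, h3, h4, h5⟩ := h
  refine ⟨h1, h2, h3, h4, ?_⟩
  have := (hb.mul ((tendsto_exp_neg h1).mono_left hl)).add h5
  rw [mul_zero, zero_add] at this
  exact this.congr fun w => by rw [div_eq_mul_inv, div_eq_mul_inv]; ring

theorem Far.congr {l : Filter ℂ} (hl : l ≤ Fr) {b b' : ℂ → ℂ} {κ : ℝ}
    (h : Far l b κ) {d : ℂ} (hb : Tendsto (fun w => b' w - b w) l (𝓝 d)) : Far l b' κ := by
  refine ⟨h.1, ?_⟩
  have := (hb.mul ((tendsto_exp_neg one_pos).mono_left hl)).add h.2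
  rw [mul_zero, zero_add] at this
  exact this.congr fun w => by simp only [ofReal_one, one_mul, div_eq_mul_inv]; ring

theorem Cls.congr {l l' : Filter ℂ} (hl : l ≤ Fr) (hl' : l' ≤ l) {b b' : ℂ → ℂ} (h : Cls l b)
    (hb : Tendsto (fun w => b' w - b w) l' (𝓝 0)) : Cls l' b' := by
  rcases h with ⟨γ, e, h0, h⟩ | ⟨γ, σ, c, h1, h2, h3, h4, h5⟩ | ⟨κ, h1, h2⟩
  · exact Or.inl ⟨γ, e, h0, Tie.congr (b := b) (Tendsto.mono_left h hl') hb⟩
  · exact Or.inr (Or.inl ⟨γ, σ, c,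
      Mid.congr (hl'.trans hl) (b := b) ⟨h1, h2, h3, h4, h5.mono_left hl'⟩ hb⟩)
  · exact Or.inr (Or.inr ⟨κ, Far.congr (hl'.trans hl) (b := b) ⟨h1, h2.mono_left hl'⟩ hb⟩)

/-- the leading term of `1 / T` -/
def uu (q : ℕ) (β ϑ : ℝ) (w : ℂ) : ℂ := exp (-(ϑ * I + (w - Real.log β) / q))

theorem uu_ne (q : ℕ) (β ϑ : ℝ) (w : ℂ) : uu q β ϑ w ≠ 0 := exp_ne_zero _

theorem uu_pow (q : ℕ) (β ϑ : ℝ) (w : ℂ) (i : ℕ) :
    uu q β ϑ w ^ i * exp (i * (ϑ * I - Real.log β / q)) = (exp (((i : ℝ) / q : ℝ) * w))⁻¹ := by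
  rw [uu, ← Complex.exp_nat_mul, ← Complex.exp_add, ← Complex.exp_neg]
  congr 1
  push_cast
  ring

theorem uu_tendsto {q : ℕ} (hq : 0 < q) (β ϑ : ℝ) : Tendsto (uu q β ϑ) Fr (𝓝 0) := by
  have h := (tendsto_exp_neg (σ := ((1 : ℕ) : ℝ) / q) (by positivity)).mul_const
    (exp ((1 : ℕ) * (ϑ * I - Real.log β / q)))⁻¹
  rw [zero_mul] at h
  refine h.congr fun w => ?_
  rw [← uu_pow, pow_one, mul_inv_cancel_right₀ (exp_ne_zero _)]

theorem norm_uu_pow {q : ℕ} (hq : 0 < q) {β : ℝ} (hβ : 0 < β) (ϑ : ℝ) (w : ℂ) :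
    ‖uu q β ϑ w‖ ^ q = β / Real.exp w.re := by
  have hq' : (q : ℝ) ≠ 0 := by positivity
  rw [uu, norm_exp, ← Real.exp_nat_mul, eq_div_iff (Real.exp_pos _).ne', ← Real.exp_add]
  conv_rhs => rw [← Real.exp_log hβ]
  congr 1
  have : (w - Real.log β) / (q : ℂ) = ((q : ℝ)⁻¹ : ℝ) * (w - Real.log β) := by
    push_cast; ring
  rw [this]
  simp only [neg_re, add_re, mul_re, ofReal_re, I_re, ofReal_im, I_im, sub_re, sub_im]
  field_simp
  ring

section lim
variable {T u : ℂ → ℂ}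

theorem lim (hT : Tendsto (fun w => T w * u w) Fr (𝓝 1)) (hu : Tendsto u Fr (𝓝 0)) (H : ℝ[X])
    {i : ℕ} (h : H.natDegree ≤ i) :
    Tendsto (fun w => aeval (T w) H * u w ^ i) Fr (𝓝 (H.coeff i : ℂ)) := by
  have h1 : Tendsto (fun w => ∑ k ∈ Finset.range (i + 1),
      (H.coeff k : ℂ) * ((T w * u w) ^ k * u w ^ (i - k))) Fr
      (𝓝 (∑ k ∈ Finset.range (i + 1), (H.coeff k : ℂ) * (1 ^ k * 0 ^ (i - k)))) :=
    tendsto_finsetSum _ fun k _ => ((hT.pow k).mul (hu.pow _)).const_mul _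
  rw [Finset.sum_eq_single i (fun k hk hki => by
    have : i - k ≠ 0 := by have := Finset.mem_range.1 hk; omega
    simp [this]) (by simp)] at h1
  simp only [one_pow, Nat.sub_self, pow_zero, mul_one] at h1
  refine h1.congr fun w => ?_
  rw [aeval_eq_sum_range' (Nat.lt_succ_of_le h), Finset.sum_mul]
  refine Finset.sum_congr rfl fun k hk => ?_
  have hk' : k ≤ i := Nat.lt_succ_iff.1 (Finset.mem_range.1 hk)
  obtain ⟨d, rfl⟩ := Nat.exists_eq_add_of_le hk'
  rw [Nat.add_sub_cancel_left, real_smul, pow_add]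
  ring

end lim

/-- the inverse function -/
theorem exists_inv (P : ℝ[X]) {q : ℕ} (hq : 0 < q) (hP : P.natDegree = q) {β ϑ : ℝ} (hβ : 0 < β)
    (hϑ : (P.leadingCoeff : ℂ) * exp (q * (ϑ * I)) = β) :
    ∃ (T : ℂ → ℂ) (R : ℝ), DifferentiableOn ℂ T {w | R < w.re} ∧
      (∀ w : ℂ, R < w.re → T w ≠ 0 ∧ aeval (T w) P = exp w) ∧
      Tendsto (fun w => T w * uu q β ϑ w) Fr (𝓝 1) := by
  have hq' : (q : ℂ) ≠ 0 := by exact_mod_cast hq.ne'
  have hc : (P.leadingCoeff : ℂ) ≠ 0 := fun h => by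
    rw [h, zero_mul] at hϑ; exact hβ.ne' (by exact_mod_cast hϑ.symm)
  set A : ℂ → ℂ := fun t => aeval t P.reverse / P.leadingCoeff with hA
  have hA0 : A 0 = 1 := by
    simp only [hA]
    rw [← coeff_zero_eq_aeval_zero', coeff_zero_reverse]
    exact div_self hc
  have hAd : AnalyticAt ℂ A 0 :=
    ((contDiff_aeval P.reverse ⊤).div_const _).contDiffAt.analyticAt
  have hs : A 0 ∈ slitPlane := by rw [hA0]; exact one_mem_slitPlane
  set g : ℂ → ℂ := fun t => exp (-(log (A t)) / q) with hg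
  have hgd : AnalyticAt ℂ g 0 := ((hAd.clog hs).neg.div_const).cexp
  have hg0 : g 0 = 1 := by simp [hg, hA0]
  set φ : ℂ → ℂ := fun t => t * g t with hφ
  have hφa : AnalyticAt ℂ φ 0 := analyticAt_id.mul hgd
  have hφ0 : φ 0 = 0 := zero_mul _
  have hφ' : deriv φ 0 ≠ 0 := by
    have := ((hasDerivAt_id (0 : ℂ)).fun_mul hgd.differentiableAt.hasDerivAt).deriv
    simp only [id, hg0, one_mul, zero_mul, add_zero] at this
    rw [hφ, this]; exact one_ne_zero
  set χ := hφa.hasStrictDerivAt.localInverse _ _ _ hφ'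
  have hχ : AnalyticAt ℂ χ 0 := by simpa only [hφ0] using hφa.analyticAt_localInverse hφ'
  have hχ0 : χ 0 = 0 := by
    have : χ (φ 0) = 0 := HasStrictFDerivAt.localInverse_apply_image ..
    rwa [hφ0] at this
  have hr : ∀ᶠ x in 𝓝 (0 : ℂ), φ (χ x) = x := by
    simpa only [hφ0] using hφa.hasStrictDerivAt.eventually_right_inverse hφ'
  have hχt : Tendsto χ (𝓝 0) (𝓝 0) := by simpa only [hχ0] using hχ.continuousAt.tendsto
  have hu := uu_tendsto hq β ϑ
  have hne : ∀ᶠ t in 𝓝 (0 : ℂ), A t ≠ 0 :=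
    hAd.continuousAt.eventually_ne (by rw [hA0]; exact one_ne_zero)
  have hev := hu.eventually (hr.and (hχ.eventually_analyticAt.and (hχt.eventually hne)))
  obtain ⟨R, hR⟩ : ∃ R : ℝ, ∀ w : ℂ, R < w.re → φ (χ (uu q β ϑ w)) = uu q β ϑ w ∧
      AnalyticAt ℂ χ (uu q β ϑ w) ∧ A (χ (uu q β ϑ w)) ≠ 0 := by
    obtain ⟨R, hR⟩ := eventually_atTop.1 (eventually_comap.1 hev)
    exact ⟨R, fun w hw => hR _ hw.le w rfl⟩
  have hχne : ∀ w : ℂ, R < w.re → χ (uu q β ϑ w) ≠ 0 := fun w hw h => by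
    have := (hR w hw).1
    rw [h, hφ0] at this
    exact uu_ne _ _ _ _ this.symm
  refine ⟨fun w => (χ (uu q β ϑ w))⁻¹, R, fun w hw => ?_, fun w hw => ⟨inv_ne_zero (hχne w hw), ?_⟩,
    ?_⟩
  · have hud : DifferentiableAt ℂ (uu q β ϑ) w := by unfold uu; fun_prop
    exact (((hR w hw).2.1.differentiableAt.comp w hud).inv (hχne w hw)).differentiableWithinAt
  · obtain ⟨h1, -, h3⟩ := hR w hw
    set t := χ (uu q β ϑ w)
    have ht : t ≠ 0 := hχne w hw
    have : Invertible t⁻¹ := invertibleOfNonzero (inv_ne_zero ht)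
    have e1 := eval₂_reverse_mul_pow (algebraMap ℝ ℂ) t⁻¹ P
    rw [invOf_eq_inv, inv_inv, hP, ← aeval_def, ← aeval_def] at e1
    have e2 : g t ^ q = (A t)⁻¹ := by
      rw [hg, ← Complex.exp_nat_mul, mul_div_cancel₀ _ hq', Complex.exp_neg, exp_log h3]
    have e3 : t ^ q * (A t)⁻¹ = uu q β ϑ w ^ q := by rw [← h1, ← e2, hφ, mul_pow]
    have e4 := uu_pow q β ϑ w q
    have e5 : exp (q * (ϑ * I - Real.log β / q)) = exp (q * (ϑ * I)) / β := by
      rw [mul_sub, mul_div_cancel₀ _ hq', Complex.exp_sub, ← ofReal_exp, Real.exp_log hβ]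
    have e6 : (((q : ℝ) / q : ℝ) : ℂ) = 1 := by push_cast; exact div_self hq'
    have hβ' : (β : ℂ) ≠ 0 := by exact_mod_cast hβ.ne'
    have e7 : aeval t P.reverse = A t * P.leadingCoeff := by rw [hA, div_mul_cancel₀ _ hc]
    rw [e5, e6, one_mul, ← e3] at e4
    rw [← e1, e7, ← inv_inv (exp w), ← e4, ← hϑ, inv_pow]
    field_simp
  · have h1 : Tendsto (fun w => g (χ (uu q β ϑ w))) Fr (𝓝 1) := by
      rw [← hg0]; exact hgd.continuousAt.tendsto.comp (hχt.comp hu)
    refine h1.congr' ?_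
    filter_upwards [tendsto_re.eventually (eventually_gt_atTop R)] with w hw
    rw [eq_inv_mul_iff_mul_eq₀ (hχne w hw)]
    exact (hR w hw).1

/-- lexicographic minimum -/
theorem exists_min {D : Type*} [Finite D] (S : Set D) (hS : S.Nonempty) (Q : D → ℝ[X]) :
    ∃ j₀ ∈ S, ∀ j ∈ S, 0 ≤ (Q j - Q j₀).leadingCoeff := by
  have h : ∀ᶠ x : ℝ in atTop, ∀ p : D × D, (Q p.1 - Q p.2).leadingCoeff < 0 →
      (Q p.1 - Q p.2).eval x < 0 := by
    refine eventually_all.2 fun p => ?_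
    by_cases hp : (Q p.1 - Q p.2).leadingCoeff < 0
    · rcases Nat.eq_zero_or_pos (Q p.1 - Q p.2).natDegree with h0 | h0
      · refine Eventually.of_forall fun x _ => ?_
        rw [eq_C_of_natDegree_eq_zero h0, leadingCoeff_C] at hp
        rwa [eq_C_of_natDegree_eq_zero h0, eval_C]
      · filter_upwards [(tendsto_atBot_of_leadingCoeff_nonpos _
          (natDegree_pos_iff_degree_pos.1 h0) hp.le).eventually (eventually_lt_atBot 0)] with x hx _
        exact hx
    · exact Eventually.of_forall fun x h => absurd h hp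
  obtain ⟨x, hx⟩ := h.exists
  obtain ⟨j₀, h0, hm⟩ := S.toFinite.exists_minimalFor (fun j => (Q j).eval x) S hS
  refine ⟨j₀, h0, fun j hj => not_lt.1 fun hlt => ?_⟩
  have := hx (j, j₀) hlt
  rw [eval_sub, sub_neg] at this
  exact absurd (hm hj this.le) (not_le.2 this)

/-- polynomial square root with remainder -/
theorem exists_sqrt (P : ℝ[X]) {m : ℕ} (hP : P.natDegree = 2 * m) (h0 : P.leadingCoeff ≠ 0) :
    ∀ k ≤ m, ∃ R : ℝ[X], R.natDegree ≤ m ∧ R.coeff m = 1 ∧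
      ∀ i, 2 * m - k ≤ i → (P - C P.leadingCoeff * R ^ 2).coeff i = 0 := by
  intro k
  induction k with
  | zero =>
    refine fun _ => ⟨X ^ m, by simp, by simp, fun i hi => ?_⟩
    rw [← pow_mul, coeff_sub, coeff_C_mul, coeff_X_pow]
    split_ifs with h
    · rw [h, mul_one, leadingCoeff, hP, mul_comm, sub_self]
    · rw [mul_zero, sub_zero]
      exact coeff_eq_zero_of_natDegree_lt (by omega)
  | succ k ih =>
    intro hk
    obtain ⟨R, h1, h2, h3⟩ := ih (by omega)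
    set β := P.leadingCoeff
    set c := (P - C β * R ^ 2).coeff (2 * m - (k + 1)) / (2 * β) with hc
    refine ⟨R + C c * X ^ (m - (k + 1)), ?_, ?_, fun i hi => ?_⟩
    · exact natDegree_add_le_of_degree_le h1 ((natDegree_C_mul_X_pow_le _ _).trans (by omega))
    · rw [coeff_add, h2, coeff_C_mul, coeff_X_pow, if_neg (by omega), mul_zero, add_zero]
    · have e : P - C β * (R + C c * X ^ (m - (k + 1))) ^ 2 = (P - C β * R ^ 2) -
          C (2 * β * c) * (R * X ^ (m - (k + 1))) - C (β * c ^ 2) * X ^ (2 * (m - (k + 1))) := by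
        simp only [C_mul, C_pow, C_ofNat]; ring
      rw [e, coeff_sub, coeff_sub (P - C β * R ^ 2), coeff_C_mul, coeff_C_mul, coeff_X_pow,
        if_neg (by omega), coeff_mul_X_pow', if_pos (by omega), mul_zero, sub_zero]
      rcases hi.eq_or_lt with h | h
      · rw [← h, show 2 * m - (k + 1) - (m - (k + 1)) = m by omega, h2, hc]
        field_simp
        ring
      · rw [h3 i (by omega), coeff_eq_zero_of_natDegree_lt (p := R) (by omega), mul_zero, sub_zero]

section cls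
variable {q : ℕ} {β ϑ : ℝ} {T : ℂ → ℂ}

theorem lim' (hq : 0 < q) (hT : Tendsto (fun w => T w * uu q β ϑ w) Fr (𝓝 1)) (H : ℝ[X])
    {i : ℕ} (h : H.natDegree ≤ i) :
    Tendsto (fun w => aeval (T w) H / exp (((i : ℝ) / q : ℝ) * w)) Fr
      (𝓝 (H.coeff i * exp (i * (ϑ * I - Real.log β / q)))) :=
  ((lim hT (uu_tendsto hq β ϑ) H h).mul_const _).congr fun w => by
    rw [mul_assoc, uu_pow, ← div_eq_mul_inv]

theorem re_cst (q : ℕ) (β ϑ a : ℝ) (i : ℕ) : ((a : ℂ) * exp (i * (ϑ * I - Real.log β / q))).re =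
    a * Real.cos (i * ϑ) * Real.exp (-(i * (Real.log β / q))) := by
  have : (i : ℂ) * (ϑ * I - Real.log β / q) =
      ((-(i * (Real.log β / q)) : ℝ) : ℂ) + ((i * ϑ : ℝ) : ℂ) * I := by push_cast; ring
  rw [this, re_ofReal_mul, Complex.exp_add, ← ofReal_exp, re_ofReal_mul, exp_ofReal_mul_I_re]
  ring

/-- a real polynomial whose leading term points to the right gives a tie or a middle end -/
theorem cls_of (hq : 0 < q) (hT : Tendsto (fun w => T w * uu q β ϑ w) Fr (𝓝 1)) {b : ℂ → ℂ}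
    {γ : ℝ} (Λ : ℝ[X]) (hd : Λ.natDegree < q) (hγ : γ = 0 ∨ 2 * Λ.natDegree < q)
    (h0 : Λ = 0 ∨ 0 < Λ.leadingCoeff * Real.cos (Λ.natDegree * ϑ))
    (hb : Tendsto (fun w => b w - exp w - I * γ * exp (w / 2) - aeval (T w) Λ +
      ((γ ^ 2 / 4 : ℝ) : ℂ)) Fr (𝓝 0)) : Cls Fr b := by
  have hq' : (0 : ℝ) < q := by positivity
  rcases Nat.eq_zero_or_pos Λ.natDegree with h | h
  · refine Or.inl ⟨γ, Λ.coeff 0, ?_, hb.congr fun w => ?_⟩
    · rcases h0 with rfl | h0
      · simp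
      · rw [leadingCoeff, h] at h0; simpa using h0.le
    · conv_lhs => rw [eq_C_of_natDegree_eq_zero h, aeval_C]
      push_cast [Complex.coe_algebraMap]; ring
  · have h0' : 0 < Λ.leadingCoeff * Real.cos (Λ.natDegree * ϑ) :=
      h0.resolve_left fun e => by simp [e] at h
    have hm : Mid Fr (fun w => exp w + I * γ * exp (w / 2) + aeval (T w) Λ) γ
        ((Λ.natDegree : ℝ) / q) _ :=
      ⟨by positivity, (div_lt_one hq').2 (by exact_mod_cast hd), by
        rw [re_cst]; exact mul_pos h0' (Real.exp_pos _), hγ.imp_right fun h => by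
          rw [div_lt_div_iff₀ hq' two_pos, one_mul, mul_comm]; exact_mod_cast h,
        (lim' (β := β) (ϑ := ϑ) hq hT Λ le_rfl).congr fun w => by ring⟩
    refine Or.inr (Or.inl ⟨γ, _, _, hm.congr le_rfl (d := -((γ ^ 2 / 4 : ℝ) : ℂ)) ?_⟩)
    have := hb.sub_const ((γ ^ 2 / 4 : ℝ) : ℂ)
    rw [zero_sub] at this
    exact this.congr fun w => by ring

theorem natDegree_lt_of {H : ℝ[X]} {m : ℕ} (hm : 0 < m) (h : ∀ i, m ≤ i → H.coeff i = 0) :
    H.natDegree < m := by
  obtain ⟨k, rfl⟩ := Nat.exists_eq_succ_of_ne_zero hm.ne'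
  exact Nat.lt_succ_of_le (natDegree_le_iff_coeff_eq_zero.2 fun i hi => h i hi)

/-- real rays -/
theorem real_ray {D : Type*} [Finite D] (P : D → ℝ[X]) (hP : ∀ j, (P j).natDegree = q) (hq : 0 < q)
    (S : Set D) (hS : S.Nonempty) {β' : ℝ} (hβ' : ∀ j ∈ S, (P j).leadingCoeff = β') {s : ℝ}
    (hs : s ^ 2 = 1) (hc : ∀ k : ℕ, Real.cos (k * ϑ) = s ^ k) :
    ∃ j₀ ∈ S, ∀ T : ℂ → ℂ, Tendsto (fun w => T w * uu q β ϑ w) Fr (𝓝 1) →
      (∀ᶠ w in Fr, aeval (T w) (P j₀) = exp w) → ∀ j ∈ S, Cls Fr fun w => aeval (T w) (P j) := by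
  have hs0 : s ≠ 0 := fun h => by simp [h] at hs
  obtain ⟨j₀, h0, hm⟩ := exists_min S hS fun j => (P j).comp (C s * X)
  refine ⟨j₀, h0, fun T hT he j hj => cls_of hq hT (γ := 0) (P j - P j₀) ?_ (Or.inl rfl) ?_ ?_⟩
  · refine natDegree_lt_of hq fun i hi => ?_
    rw [coeff_sub]
    rcases hi.eq_or_lt with h | h
    · have e1 := hβ' j hj
      have e2 := hβ' j₀ h0
      rw [leadingCoeff, hP] at e1 e2
      rw [← h, e1, e2, sub_self]
    · rw [coeff_eq_zero_of_natDegree_lt (by rw [hP]; exact h),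
        coeff_eq_zero_of_natDegree_lt (by rw [hP]; exact h), sub_self]
  · refine or_iff_not_imp_left.2 fun hne => ?_
    have h1 := hm j hj
    have hd : (C s * X).natDegree = 1 := natDegree_C_mul_X s hs0
    rw [← sub_comp, leadingCoeff_comp (by rw [hd]; exact one_ne_zero), leadingCoeff_C_mul_X] at h1
    rw [hc]
    exact h1.lt_of_ne' (mul_ne_zero (leadingCoeff_ne_zero.2 hne) (pow_ne_zero _ hs0))
  · refine tendsto_const_nhds.congr' (he.mono fun w hw => ?_)
    simp [hw]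

/-- the ray `π / q`, `q` even, negative leading coefficient -/
theorem half_ray {D : Type*} [Finite D] (P : D → ℝ[X]) {m : ℕ} (hm : 0 < m) (hβ : 0 < β)
    (hP : ∀ j, (P j).natDegree = 2 * m) (S : Set D) (hS : S.Nonempty)
    (hβ' : ∀ j ∈ S, (P j).leadingCoeff = -β) :
    ∃ j₀ ∈ S, ∀ T : ℂ → ℂ,
      Tendsto (fun w => T w * uu (2 * m) β (-Real.pi / (2 * m : ℕ)) w) Fr (𝓝 1) →
      (∀ᶠ w in Fr, aeval (T w) (P j₀) = exp w) → ∀ j ∈ S, Cls Fr fun w => aeval (T w) (P j) := by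
  have hq : 0 < 2 * m := by omega
  have hm' : (0 : ℝ) < m := by positivity
  have hsq : ∀ j, ∃ R : ℝ[X], j ∈ S → R.natDegree ≤ m ∧ R.coeff m = 1 ∧
      (P j + C β * R ^ 2).natDegree < m := fun j => by
    by_cases hj : j ∈ S
    · obtain ⟨R, h1, h2, h3⟩ := exists_sqrt (P j) (hP j)
        (by rw [hβ' j hj]; exact neg_ne_zero.2 hβ.ne') m le_rfl
      refine ⟨R, fun _ => ⟨h1, h2, natDegree_lt_of hm fun i hi => ?_⟩⟩
      have := h3 i (by omega)
      rwa [hβ' j hj, C_neg, neg_mul, sub_neg_eq_add] at this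
    · exact ⟨0, fun h => absurd h hj⟩
  choose R hR using hsq
  set L : D → ℝ[X] := fun j => P j + C β * R j ^ 2 with hL
  obtain ⟨j₀, h0, hmin⟩ := exists_min S hS fun j => X ^ m * (R j - C ((R j).coeff 0)) + L j
  refine ⟨j₀, h0, fun T hT he j hj => ?_⟩
  set ϑ := -Real.pi / (2 * m : ℕ) with hϑ
  have hu := uu_tendsto hq β ϑ
  have hcos : ∀ k : ℕ, Real.cos (k * ϑ) = Real.cos (k / (2 * m) * Real.pi) := fun k => by
    rw [← Real.cos_neg, hϑ]; congr 1; push_cast; ring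
  obtain ⟨a1, a2, a3⟩ := hR j hj
  obtain ⟨b1, b2, b3⟩ := hR j₀ h0
  have hΛ : (L j - L j₀).natDegree < m :=
    (natDegree_sub_le _ _).trans_lt (max_lt a3 b3)
  set E := R j - R j₀ - C ((R j - R j₀).coeff 0) with hE
  have hk : X ^ m * (R j - C ((R j).coeff 0)) + L j - (X ^ m * (R j₀ - C ((R j₀).coeff 0)) + L j₀) =
      X ^ m * E + (L j - L j₀) := by rw [hE, coeff_sub, C_sub]; ring
  have h1 := hmin j hj
  rw [hk] at h1
  have hD : (R j - R j₀).natDegree < m := natDegree_lt_of hm fun i hi => by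
    rw [coeff_sub]
    rcases hi.eq_or_lt with h | h
    · rw [← h, a2, b2, sub_self]
    · rw [coeff_eq_zero_of_natDegree_lt (a1.trans_lt h),
        coeff_eq_zero_of_natDegree_lt (b1.trans_lt h), sub_self]
  have hPP : P j - P j₀ = C (-β) * ((R j - R j₀) * (R j + R j₀)) + (L j - L j₀) := by
    simp only [hL, C_neg]; ring
  rcases Nat.eq_zero_or_pos (R j - R j₀).natDegree with hd | hd
  · -- constant difference
    set r := (R j - R j₀).coeff 0
    have hr : R j = R j₀ + C r := by rw [← eq_C_of_natDegree_eq_zero hd]; ring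
    have hE0 : E = 0 := by rw [hE, ← eq_C_of_natDegree_eq_zero hd, sub_self]
    rw [hE0, mul_zero, zero_add] at h1
    set s : ℂ → ℂ := fun w => (uu (2 * m) β ϑ w ^ m)⁻¹ with hs
    have hsb : ((√β : ℝ) : ℂ) ^ 2 = β := by rw [← ofReal_pow, Real.sq_sqrt hβ.le]
    have hsb0 : ((√β : ℝ) : ℂ) ≠ 0 := by exact_mod_cast (Real.sqrt_pos.2 hβ).ne'
    have hs1 : ∀ w, (√β : ℝ) * s w = -I * exp (w / 2) := fun w => by
      have e := uu_pow (2 * m) β ϑ w m
      have hm'' : (m : ℂ) ≠ 0 := by exact_mod_cast hm.ne'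
      have e1 : (m : ℂ) * (ϑ * I - Real.log β / (2 * m : ℕ)) =
          -(Real.pi / 2 * I) - (Real.log (√β) : ℝ) := by
        rw [Real.log_sqrt hβ.le, hϑ]; push_cast; field_simp
      have e2 : ((((m : ℝ) / (2 * m : ℕ) : ℝ)) : ℂ) * w = w / 2 := by push_cast; field_simp
      rw [e1, e2, Complex.exp_sub, Complex.exp_neg, exp_pi_div_two_mul_I, ← ofReal_exp,
        Real.exp_log (Real.sqrt_pos.2 hβ), inv_I] at e
      have := pow_ne_zero m (uu_ne (2 * m) β ϑ w)
      rw [hs, ← inv_inv (exp (w / 2)), ← e]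
      field_simp
    have l1 := lim hT hu (R j₀) b1
    have l2 := lim hT hu (L j₀) b3.le
    rw [b2] at l1
    rw [coeff_eq_zero_of_natDegree_lt b3] at l2
    have l3 : Tendsto (fun w => aeval (T w) (R j₀) - s w) Fr (𝓝 0) := by
      have h2 : ((1 : ℝ) : ℂ) + 1 ≠ 0 := by norm_num
      have := (l2.div (l1.add_const 1) h2).div_const (β : ℂ)
      simp only [ofReal_zero, zero_div] at this
      refine this.congr' ?_
      filter_upwards [he, (l1.add_const 1).eventually_ne h2] with w hw hne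
      have hu0 := pow_ne_zero m (uu_ne (2 * m) β ϑ w)
      have hβ0 : (β : ℂ) ≠ 0 := by exact_mod_cast hβ.ne'
      have e1 : (β : ℂ) * s w ^ 2 = -exp w := by
        rw [← hsb, ← mul_pow, hs1, mul_pow, neg_sq, I_sq, ← Complex.exp_nat_mul]
        push_cast; ring_nf
      have e2 : aeval (T w) (L j₀) = β * (aeval (T w) (R j₀) ^ 2 - s w ^ 2) := by
        simp only [hL, map_add, map_mul, map_pow, aeval_C, hw, Complex.coe_algebraMap]
        linear_combination e1
      simp only [Pi.div_apply]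
      rw [e2, div_div, div_eq_iff (mul_ne_zero hne hβ0), hs]
      field_simp
      ring
    refine cls_of hq hT (γ := 2 * r * √β) (L j - L j₀) (by omega) (Or.inr (by omega)) ?_ ?_
    · refine or_iff_not_imp_left.2 fun hne => mul_pos (h1.lt_of_ne' (leadingCoeff_ne_zero.2 hne)) ?_
      rw [hcos]
      have : ((L j - L j₀).natDegree : ℝ) / (2 * m) < 1 / 2 := by
        rw [div_lt_div_iff₀ (by positivity) two_pos]
        have : ((L j - L j₀).natDegree : ℝ) < m := by exact_mod_cast hΛ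
        linarith
      have h3 : 0 ≤ ((L j - L j₀).natDegree : ℝ) / (2 * m) := by positivity
      exact Real.cos_pos_of_mem_Ioo ⟨by nlinarith [Real.pi_pos], by nlinarith [Real.pi_pos]⟩
    · have := l3.const_mul (-2 * β * r : ℂ)
      rw [mul_zero] at this
      refine this.congr' (he.mono fun w hw => ?_)
      have e := congrArg (aeval (T w)) hPP
      simp only [map_sub, map_add, map_mul, aeval_C, hw, hr, Complex.coe_algebraMap] at e
      simp only [map_sub]
      push_cast at e ⊢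
      linear_combination -e + 2 * r * (√β : ℝ) * hs1 w - (2 * r * s w + r ^ 2) * hsb
  · -- the high parts differ
    have hEd : E.natDegree = (R j - R j₀).natDegree := by rw [hE, natDegree_sub_C]
    have hE0 : E ≠ 0 := fun h => by rw [h, natDegree_zero] at hEd; omega
    have hEl : E.leadingCoeff = (R j - R j₀).leadingCoeff := by
      rw [leadingCoeff, hEd, hE, coeff_sub, coeff_C, if_neg hd.ne', sub_zero, leadingCoeff]
    have hX : (X ^ m * E).natDegree = m + (R j - R j₀).natDegree := by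
      rw [natDegree_mul (pow_ne_zero _ X_ne_zero) hE0, natDegree_X_pow, hEd]
    rw [leadingCoeff_add_of_degree_lt' (degree_lt_degree (by omega)), leadingCoeff_mul,
      leadingCoeff_X_pow, one_mul, hEl] at h1
    have hD0 : R j - R j₀ ≠ 0 := fun h => by rw [h, natDegree_zero] at hd; omega
    have h2 : 0 < (R j - R j₀).leadingCoeff := h1.lt_of_ne' (leadingCoeff_ne_zero.2 hD0)
    have hc2 : (R j + R j₀).coeff m = 2 := by rw [coeff_add, a2, b2]; norm_num
    have hS2 : (R j + R j₀).natDegree = m := natDegree_eq_of_le_of_coeff_ne_zero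
      ((natDegree_add_le _ _).trans (max_le a1 b1)) (by rw [hc2]; exact two_ne_zero)
    have hS0 : R j + R j₀ ≠ 0 := fun h => by rw [h, natDegree_zero] at hS2; omega
    have hM : (C (-β) * ((R j - R j₀) * (R j + R j₀))).natDegree = (R j - R j₀).natDegree + m := by
      rw [natDegree_C_mul (neg_ne_zero.2 hβ.ne'), natDegree_mul hD0 hS0, hS2]
    have hlt := degree_lt_degree (p := L j - L j₀) (q := C (-β) * ((R j - R j₀) * (R j + R j₀)))
      (by omega)
    have hdeg : (P j - P j₀).natDegree = (R j - R j₀).natDegree + m := by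
      rw [hPP, natDegree_add_eq_left_of_degree_lt hlt, hM]
    refine cls_of hq hT (γ := 0) (P j - P j₀) (by omega) (Or.inl rfl) (Or.inr ?_) ?_
    · rw [hdeg, hcos, hPP, leadingCoeff_add_of_degree_lt' hlt, leadingCoeff_mul, leadingCoeff_mul,
        leadingCoeff_C, show (R j + R j₀).leadingCoeff = 2 by rw [leadingCoeff, hS2, hc2]]
      have e1 : (0 : ℝ) < (R j - R j₀).natDegree := by exact_mod_cast hd
      have e2 : ((R j - R j₀).natDegree : ℝ) < m := by exact_mod_cast hD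
      have e3 : 1 / 2 < (((R j - R j₀).natDegree + m : ℕ) : ℝ) / (2 * m) := by
        rw [div_lt_div_iff₀ two_pos (by positivity)]; push_cast; linarith
      have e4 : (((R j - R j₀).natDegree + m : ℕ) : ℝ) / (2 * m) < 1 := by
        rw [div_lt_one (by positivity)]; push_cast; linarith
      exact mul_pos_of_neg_of_neg (mul_neg_of_neg_of_pos (neg_neg_of_pos hβ) (by positivity))
        (Real.cos_neg_of_pi_div_two_lt_of_lt (by nlinarith [Real.pi_pos])
          (by nlinarith [Real.pi_pos]))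
    · refine tendsto_const_nhds.congr' (he.mono fun w hw => ?_)
      simp [hw]

end cls

/-- **Ties on one Stokes ray.** -/
theorem ties {D : Type*} [Finite D] [Nonempty D] (P : D → ℝ[X]) {q : ℕ} (hq : 0 < q)
    (hP : ∀ j, (P j).natDegree = q) :
    ∃ (j₀ : D) (T : ℂ → ℂ) (R β : ℝ), 0 < β ∧ β = |(P j₀).leadingCoeff| ∧
      (∀ j, β ≤ |(P j).leadingCoeff|) ∧ DifferentiableOn ℂ T {w | R < w.re} ∧
      (∀ w : ℂ, R < w.re → T w ≠ 0 ∧ aeval (T w) (P j₀) = exp w) ∧
      Tendsto (fun w => β * ‖T w‖ ^ q / Real.exp w.re) Fr (𝓝 1) ∧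
      ∀ j, Cls Fr fun w => aeval (T w) (P j) := by
  obtain ⟨j₁, h1⟩ := Finite.exists_min fun j => |(P j).leadingCoeff|
  set β' := (P j₁).leadingCoeff with hβ'
  have hne : β' ≠ 0 := leadingCoeff_ne_zero.2 fun h => by
    have := hP j₁; rw [h, natDegree_zero] at this; omega
  have hβ : 0 < |β'| := abs_pos.2 hne
  set S := {j | (P j).leadingCoeff = β'}
  have hS : S.Nonempty := ⟨j₁, rfl⟩
  have hq' : (q : ℂ) ≠ 0 := by exact_mod_cast hq.ne'
  obtain ⟨ϑ, hϑ, j₀, h0, H⟩ : ∃ ϑ : ℝ, (β' : ℂ) * exp (q * (ϑ * I)) = (|β'| : ℝ) ∧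
      ∃ j₀ ∈ S, ∀ T : ℂ → ℂ, Tendsto (fun w => T w * uu q |β'| ϑ w) Fr (𝓝 1) →
      (∀ᶠ w in Fr, aeval (T w) (P j₀) = exp w) → ∀ j ∈ S, Cls Fr fun w => aeval (T w) (P j) := by
    rcases hne.lt_or_gt with h | h
    · rcases Nat.even_or_odd q with ⟨m, hm⟩ | ho
      · obtain rfl : q = 2 * m := by omega
        refine ⟨-Real.pi / (2 * m : ℕ), ?_, half_ray P (by omega) hβ hP S hS fun j hj => ?_⟩
        · have : ((2 * m : ℕ) : ℂ) * (((-Real.pi / (2 * m : ℕ) : ℝ) : ℂ) * I) = -(Real.pi * I) := by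
            rw [ofReal_div, ofReal_natCast]; push_cast [-Nat.cast_mul]; field_simp
          rw [this, Complex.exp_neg, exp_pi_mul_I, abs_of_neg h]; simp
        · rw [abs_of_neg h, neg_neg]; exact hj
      · refine ⟨Real.pi, ?_, real_ray P hP hq S hS (fun j hj => hj) (s := -1) (by norm_num)
          fun k => Real.cos_nat_mul_pi k⟩
        rw [Complex.exp_nat_mul, exp_pi_mul_I, ho.neg_one_pow, abs_of_neg h]; simp
    · refine ⟨0, by simp [abs_of_pos h], real_ray P hP hq S hS (fun j hj => hj) (s := 1)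
        (by norm_num) fun k => by simp⟩
  have h0' : (P j₀).leadingCoeff = β' := h0
  obtain ⟨T, R, hT1, hT2, hT3⟩ := exists_inv (P j₀) hq (hP j₀) hβ (ϑ := ϑ) (by rw [h0']; exact hϑ)
  have he : ∀ᶠ w in Fr, aeval (T w) (P j₀) = exp w :=
    (tendsto_re.eventually (eventually_gt_atTop R)).mono fun w hw => (hT2 w hw).2
  refine ⟨j₀, T, R, |β'|, hβ, by rw [h0'], h1, hT1, hT2, ?_, fun j => ?_⟩
  · have := hT3.norm.pow q
    rw [norm_one, one_pow] at this
    refine this.congr fun w => ?_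
    rw [norm_mul, mul_pow, norm_uu_pow hq hβ]; ring
  · by_cases hj : j ∈ S
    · exact H T hT3 he j hj
    · refine Or.inr (Or.inr ⟨(P j).leadingCoeff / β', ?_, ?_⟩)
      · have e1 : 1 ≤ |(P j).leadingCoeff / β'| := by rw [abs_div]; exact (one_le_div hβ).2 (h1 j)
        have e2 : (P j).leadingCoeff / β' ≠ 1 := fun h => hj ((div_eq_one_iff_eq hne).1 h)
        rcases le_abs.1 e1 with h | h
        · exact Or.inl (h.lt_of_ne' e2)
        · exact Or.inr (by linarith)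
      · have l1 := lim hT3 (uu_tendsto hq _ _) (P j) (hP j).le
        have l2 := lim hT3 (uu_tendsto hq _ _) (P j₀) (hP j₀).le
        have e1 : (P j).coeff q = (P j).leadingCoeff := by rw [leadingCoeff, hP]
        have e2 : (P j₀).coeff q = β' := by rw [← h0', leadingCoeff, hP]
        rw [e1] at l1
        rw [e2] at l2
        rw [ofReal_div]
        refine (l1.div l2 (by exact_mod_cast hne)).congr' (he.mono fun w hw => ?_)
        simp only [Pi.div_apply, hw]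
        exact mul_div_mul_right _ _ (pow_ne_zero _ (uu_ne _ _ _ _))

end Crest.Agent.N250.Ti
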